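import Crest.Agent.N325.Ds.Defs

/-!
# Row 325 (helper63): numbering, selection and projection of the items
-/

set_option autoImplicit false

namespace Crest.Agent.N325.Ds

open Bf

variable {g : Gl}

/-- the numbering of the touched vertices -/
structure NumRes (S : List ℕ) (r : Arr ℕ × ℕ × List ℕ) : Prop where
  nd : r.2.2.Nodup
  mem : ∀ v, v ∈ r.2.2 ↔ v ∈ S
  len : r.2.1 = r.2.2.length
  ne : ∀ v, r.1.get v ≠ 0 ↔ v ∈ S
  le : ∀ v, r.1.get v ≤ r.2.1
  inj : ∀ u v, u ∈ S → v ∈ S → r.1.get u = r.1.get v → u = v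

theorem NumRes.le_len {S : List ℕ} {r : Arr ℕ × ℕ × List ℕ} (h : NumRes S r) :
    r.2.1 ≤ S.length :=
  h.len ▸ (List.subperm_of_subset h.nd fun v k => (h.mem v).1 k).length_le

theorem NumRes.le_bd {S : List ℕ} {r : Arr ℕ × ℕ × List ℕ} (h : NumRes S r) {n : ℕ}
    (k : ∀ v ∈ S, v < n) : r.2.1 ≤ n := by
  have := (List.subperm_of_subset h.nd (l₂ := List.range n)
    fun v a => List.mem_range.2 (k v ((h.mem v).1 a))).length_le
  rw [List.length_range] at this
  exact h.len ▸ this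

theorem sp_numS' (S : List ℕ) : Sp g (numS S) fun r t => NumRes S r ∧ t = S.length + 1 :=
  (sp_foldP _ S _).mono fun r t h => ⟨by
    have key : ∀ (l D : List ℕ) (s : Arr ℕ × ℕ × List ℕ), NumRes D s →
        NumRes (l.reverse ++ D) (l.foldl (fun s v => if s.1.get v = 0 then
          (s.1.set v (s.2.1 + 1), s.2.1 + 1, v :: s.2.2) else s) s) := fun l => by
      induction l with
      | nil => exact fun _ _ k => k
      | cons v l ih =>
        intro D s k
        rw [List.foldl_cons, List.reverse_cons, List.append_assoc]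
        refine ih _ _ ?_
        split_ifs with e
        · have nv : v ∉ D := fun a => (k.ne v).2 a e
          refine ⟨List.nodup_cons.2 ⟨fun a => nv ((k.mem v).1 a), k.nd⟩, fun u => by simp [k.mem],
            by simp [k.len], fun u => ?_, fun u => ?_, fun a b ha hb => ?_⟩
          · simp only [Arr.get_set, List.singleton_append, List.mem_cons]
            split_ifs with q
            · simp [q]
            · simp [q, ← k.ne]
          · simp only [Arr.get_set]
            have := k.le u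
            split_ifs <;> omega
          · simp only [Arr.get_set, List.singleton_append, List.mem_cons] at ha hb ⊢
            have := k.le a
            have := k.le b
            split_ifs with p q q
            · exact fun _ => p.trans q.symm
            · omega
            · omega
            · exact k.inj a b (ha.resolve_left p) (hb.resolve_left q)
        · have yv : v ∈ D := (k.ne v).1 e
          have m : ∀ u, u ∈ [v] ++ D ↔ u ∈ D := fun u => by
            simp only [List.singleton_append, List.mem_cons]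
            exact ⟨fun a => a.elim (fun a => a ▸ yv) id, Or.inr⟩
          exact ⟨k.nd, fun u => (k.mem u).trans (m u).symm, k.len,
            fun u => (k.ne u).trans (m u).symm, k.le,
            fun a b ha hb => k.inj a b ((m a).1 ha) ((m b).1 hb)⟩
    have := key S [] (Arr.cst 0, 0, []) ⟨List.nodup_nil, fun _ => Iff.rfl, rfl, fun _ => by simp,
      fun _ => le_rfl, fun _ _ a => by cases a⟩
    rw [← h.1] at this
    have m : ∀ u, u ∈ S.reverse ++ [] ↔ u ∈ S := fun u => by simp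
    exact ⟨this.nd, fun u => (this.mem u).trans (m u), this.len, fun u => (this.ne u).trans (m u),
      this.le, fun a b ha hb => this.inj a b ((m a).2 ha) ((m b).2 hb)⟩, h.2⟩

theorem sp_numS (S : List ℕ) : Sp g (numS S) fun r t =>
    (∀ v, r.1.get v ≠ 0 ↔ v ∈ S) ∧ (∀ v, r.1.get v ≤ r.2.1) ∧
    (∀ u ∈ S, ∀ v ∈ S, r.1.get u = r.1.get v → u = v) ∧ r.2.2.Nodup ∧ (∀ v, v ∈ r.2.2 ↔ v ∈ S) ∧
    r.2.2.length = r.2.1 ∧ r.2.1 ≤ S.length ∧ t = S.length + 1 :=
  (sp_numS' S).mono fun _ _ h => ⟨h.1.ne, h.1.le, fun u a v b => h.1.inj u v a b, h.1.nd, h.1.mem,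
    h.1.len.symm, h.1.le_len, h.2⟩

theorem sp_pickE (al h : Arr Bool) (C : List ℕ) :
    Sp g (pickE al h C) fun r t => r.2.Nodup ∧
      (∀ o, o ∈ r.2 ↔ o ∈ C ∧ o % 2 = 0 ∧ al.get (o / 2) = true ∧ h.get (o / 2) = false) ∧
      r.2.length ≤ C.length ∧ t = C.length + 1 :=
  (sp_foldP _ C _).mono fun r t k => by
    have key : ∀ (l D : List ℕ) (s : Arr Bool × List ℕ), (s.2.Nodup ∧
        (∀ o, o ∈ s.2 ↔ o ∈ D ∧ o % 2 = 0 ∧ al.get (o / 2) = true ∧ h.get (o / 2) = false) ∧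
        ∀ e, s.1.get e = true ↔ 2 * e ∈ s.2) →
        let s' := l.foldl (fun (s : Arr Bool × List ℕ) o => if o % 2 = 0 ∧ al.get (o / 2) = true ∧
          h.get (o / 2) = false ∧ s.1.get (o / 2) = false then (s.1.set (o / 2) true, o :: s.2)
          else s) s
        s'.2.Nodup ∧ ∀ o, o ∈ s'.2 ↔ o ∈ l.reverse ++ D ∧ o % 2 = 0 ∧ al.get (o / 2) = true ∧
          h.get (o / 2) = false := fun l => by
      induction l with
      | nil => exact fun _ _ k => ⟨k.1, k.2.1⟩
      | cons v l ih =>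
        intro D s ⟨a, b, c⟩
        rw [List.foldl_cons, List.reverse_cons, List.append_assoc]
        refine ih _ _ ?_
        split_ifs with e
        · have nv : v ∉ s.2 := fun q => by
            have := (c (v / 2)).2 (by rwa [show 2 * (v / 2) = v by omega])
            rw [e.2.2.2] at this; cases this
          refine ⟨List.nodup_cons.2 ⟨nv, a⟩, fun o => ?_, fun x => ?_⟩
          · simp only [List.singleton_append, List.mem_cons, b]
            exact ⟨fun q => q.elim (fun q => ⟨Or.inl q, q ▸ ⟨e.1, e.2.1, e.2.2.1⟩⟩)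
              fun q => ⟨Or.inr q.1, q.2⟩, fun q => q.1.imp id fun p => ⟨p, q.2⟩⟩
          · simp only [Arr.get_set, List.mem_cons, ← c]
            have := e.1
            split_ifs with q
            · simp only [true_iff]; left; omega
            · exact ⟨Or.inr, fun p => p.resolve_left (by omega)⟩
        · refine ⟨a, fun o => ?_, c⟩
          simp only [List.singleton_append, List.mem_cons]
          refine ⟨fun q => ⟨Or.inr ((b o).1 q).1, ((b o).1 q).2⟩, fun q => ?_⟩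
          rcases q.1 with rfl | p
          · have : s.1.get (o / 2) = true := by
              by_contra z
              exact e ⟨q.2.1, q.2.2.1, q.2.2.2, by simpa using z⟩
            have := (c _).1 this
            rwa [show 2 * (o / 2) = o by have := q.2.1; omega] at this
          · exact (b o).2 ⟨p, q.2⟩
    obtain ⟨a, b⟩ := key C [] (Arr.cst false, []) ⟨List.nodup_nil, fun _ => by simp, fun _ => by simp⟩
    rw [← k.1] at a b
    have b' : ∀ o, o ∈ r.2 ↔ o ∈ C ∧ o % 2 = 0 ∧ al.get (o / 2) = true ∧ h.get (o / 2) = false :=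
      fun o => by simpa using b o
    exact ⟨a, b', (List.subperm_of_subset a fun v q => ((b' v).1 q).1).length_le, k.2⟩

section proj

variable {vx vx0 : ℕ → ℕ} {S : List ℕ}

theorem Chg.eq (h : Chg vx vx0 S) {o : ℕ} (k : vx o ∉ S) : vx o = vx0 o :=
  by_contra fun a => k (h.2 o a).1

theorem Chg.eq0 (h : Chg vx vx0 S) {o : ℕ} (k : vx0 o ∉ S) : vx o = vx0 o :=
  by_contra fun a => k (h.2 o a).2

theorem Chg.mem (h : Chg vx vx0 S) (o : ℕ) : vx o ∈ S ↔ vx0 o ∈ S :=
  ⟨fun a => by_contra fun b => b (h.eq0 b ▸ a), fun a => by_contra fun b => b ((h.eq b).symm ▸ a)⟩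

/-- counts at untouched vertices do not change -/
theorem Chg.cnt_eq (h : Chg vx vx0 S) {v : ℕ} (hv : v ∉ S) (l : List ℕ) :
    cnt vx v l = cnt vx0 v l := by
  have e : ∀ x, vx x = v ↔ vx0 x = v := fun x =>
    ⟨fun a => (h.eq (a ▸ hv)).symm.trans a, fun a => (h.eq0 (a ▸ hv)).trans a⟩
  induction l with
  | nil => rfl
  | cons o l ih => simp only [cnt_cons, ih, e]

/-- every new vertex is a part of one old vertex -/
theorem Chg.cnt_le (h : Chg vx vx0 S) (v : ℕ) : ∃ v0, ∀ l, cnt vx v l ≤ cnt vx0 v0 l := by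
  by_cases e : ∃ o, vx o = v
  · obtain ⟨o, rfl⟩ := e
    have c : ∀ x, (if vx x = vx o then 1 else 0) ≤ if vx0 x = vx0 o then 1 else 0 := fun x => by
      split_ifs with p q
      exacts [le_rfl, absurd (h.1 _ _ p) q, Nat.zero_le _, le_rfl]
    refine ⟨vx0 o, fun l => ?_⟩
    induction l with
    | nil => exact le_rfl
    | cons x l ih =>
      have := c x
      have := c (rv x)
      rw [cnt_cons, cnt_cons]; omega
  · refine ⟨0, fun l => ?_⟩
    by_contra a
    obtain ⟨o, _, b⟩ := exists_of_cnt_pos (vx := vx) (v := v) (l := l) (by omega)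
    exact e (b.elim (fun b => ⟨_, b⟩) fun b => ⟨_, b⟩)

/-- a walk that avoids `S` is intact -/
theorem Chg.wk (h : Chg vx vx0 S) {u v : ℕ} {l : List ℕ} (hw : Wk vx0 u l v)
    (k : ∀ o ∈ l, vx o ∉ S ∧ vx (rv o) ∉ S) : Wk vx u l v :=
  hw.congr fun o a => ⟨h.eq (k o a).1, h.eq (k o a).2⟩

theorem fold_stop (vx nu : Arr ℕ) (l : List ℕ) (c : ℕ) (p q : List ℕ) :
    l.foldl (fun s o => pstep vx nu o s) (true, c, p, q) = (true, c, p, rvL l ++ q) := by
  induction l generalizing q with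
  | nil => rfl
  | cons o l ih => rw [List.foldl_cons, pstep, if_pos (Or.inl rfl), ih]; simp

/-- the scan up to the first touched vertex -/
theorem fold_pstep {vx nu : Arr ℕ} (h : Chg vx.get vx0 S) (hn : ∀ v, nu.get v ≠ 0 ↔ v ∈ S)
    {w : List ℕ} {a z : ℕ} (hw : Wk vx0 (vx0 a) w z) (p0 q0 : List ℕ) :
    ∃ b c p q, w.foldl (fun s o => pstep vx nu o s) (false, a, p0, q0) =
        (b, c, rvL p ++ p0, rvL q ++ q0) ∧ w = p ++ q ∧ Wk vx.get (vx.get a) p (vx.get c) ∧
      Wk vx0 (vx0 c) q z ∧ (∀ x ∈ p, vx.get x ∉ S) ∧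
      (vx.get c ∉ S → q = [] ∧ vx.get a ∉ S ∧ ∀ x ∈ p, vx.get (rv x) ∉ S) := by
  induction w generalizing a p0 with
  | nil => exact ⟨false, a, [], [], rfl, rfl, rfl, hw, by simp, fun k => ⟨rfl, k, by simp⟩⟩
  | cons o l ih =>
    rw [List.foldl_cons, pstep]
    by_cases e : vx.get a ∈ S
    · rw [if_pos (Or.inr ((hn _).2 e)), fold_stop]
      exact ⟨true, a, [], o :: l, by simp, rfl, rfl, hw, by simp, fun k => absurd e k⟩
    · rw [if_neg (by simp only [Bool.false_eq_true, false_or, hn]; exact e)]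
      obtain ⟨b, c, p, q, h1, h2, h3, h4, h5, h6⟩ := ih hw.2 (rv o :: p0)
      have eo : vx.get o ∉ S := by rw [h.mem, hw.1, ← h.mem]; exact e
      refine ⟨b, c, o :: p, q, by rw [h1]; simp, by rw [h2]; rfl, ⟨?_, h3⟩, h4, ?_, fun k => ?_⟩
      · rw [h.eq eo, h.eq e, hw.1]
      · simpa [eo] using h5
      · obtain ⟨k1, k2, k3⟩ := h6 k
        exact ⟨k1, e, by simpa [k2] using k3⟩

/-- the projected item -/
structure PrRes (vx : ℕ → ℕ) (S : List ℕ) (o : ℕ) (w : List ℕ) (i : It) : Prop where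
  fst : i.1 = o
  ma : i.2.1 ∈ S
  mb : i.2.2.1 ∈ S
  wa : Wk vx i.2.1 i.2.2.2.1 (vx o)
  wb : Wk vx (vx (rv o)) i.2.2.2.2 i.2.2.1
  len : i.2.2.2.1.length + i.2.2.2.2.length ≤ w.length
  cnt : ∀ f v, cnt f v (i.2.2.2.1 ++ i.1 :: i.2.2.2.2) ≤ cnt f v (o :: w)
  old : ∀ x ∈ i.2.2.2.1 ++ i.2.2.2.2, rv x ∈ w ∧ (vx x ∉ S ∨ vx (rv x) ∉ S)

/-- **the projection** -/
theorem sp_mkIt' {vx nu : Arr ℕ} (h : Chg vx.get vx0 S) (hn : ∀ v, nu.get v ≠ 0 ↔ v ∈ S)
    {o : ℕ} {w : List ℕ} (hw : Wk vx0 (vx0 o) w (vx0 (rv o))) (J : List It) :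
    Sp g (mkIt vx nu o w J) fun r t => t ≤ 3 * (w.length + 1) ∧
      ((r = J ∧ ∀ x ∈ o :: w, vx.get x ∉ S ∧ vx.get (rv x) ∉ S) ∨
        ∃ i, r = i :: J ∧ PrRes vx.get S o w i ∧ ∃ x ∈ o :: w, vx.get x ∈ S ∨ vx.get (rv x) ∈ S) := by
  obtain ⟨b, c, p, q, h1, h2, h3, h4, h5, h6⟩ := fold_pstep h hn hw [] []
  refine (sp_foldP _ w _).bind fun s t ⟨e, et⟩ => ?_
  rw [h1, List.append_nil, List.append_nil] at e
  subst e
  by_cases k : vx.get c ∈ S
  · rw [if_neg ((hn _).2 k)]
    obtain ⟨b', c', p', q', g1, g2, g3, g4, g5, g6⟩ := fold_pstep h hn h4.rev [] []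
    refine (sp_foldP _ _ _).bind fun s' t' ⟨e', et'⟩ => ?_
    rw [g1, List.append_nil, List.append_nil] at e'
    subst e'
    refine (sp_rvApp _ []).bind fun ub t'' ⟨e'', et''⟩ => ?_
    rw [List.append_nil, rvL_rvL] at e''
    subst e''
    have l1 := congrArg List.length h2
    have l2 := congrArg List.length g2
    simp only [List.length_append, length_rvL] at l1 l2 et' et''
    refine ⟨by omega, Or.inr ⟨_, rfl, ⟨rfl, k, ?_, h3.rev, g3, ?_, fun f v => ?_, fun x a => ?_⟩, ?_⟩⟩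
    · by_contra z
      obtain ⟨z1, _, _⟩ := g6 z
      rw [z1] at g4
      exact z (by rw [h.mem, wk_nil.1 g4, ← h.mem]; exact k)
    · simp only [length_rvL]; omega
    · have c1 := congrArg (cnt f v) h2
      have c2 := congrArg (cnt f v) g2
      simp only [cnt_append, cnt_rvL] at c1 c2 ⊢
      rw [cnt_cons' v o, cnt_cons' v o w]; omega
    · rcases List.mem_append.1 a with a | a
      · exact ⟨h2 ▸ List.mem_append_left _ (mem_rvL.1 a), Or.inr (h5 _ (mem_rvL.1 a))⟩
      · exact ⟨h2 ▸ List.mem_append_right _ (mem_rvL.1 (g2 ▸ List.mem_append_left _ a)),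
          Or.inl (g5 _ a)⟩
    · rcases List.eq_nil_or_concat p with z | ⟨p1, x, z⟩
      · rw [z] at h3
        exact ⟨o, List.mem_cons_self, Or.inl (wk_nil.1 h3 ▸ k)⟩
      · rw [z, List.concat_eq_append] at h3
        obtain ⟨_, _, y⟩ := wk_append.1 h3
        exact ⟨x, List.mem_cons_of_mem _ (by rw [h2, z]; simp), Or.inr (wk_nil.1 y.2 ▸ k)⟩
  · rw [if_pos (by_contra fun z => k ((hn _).1 z))]
    obtain ⟨k1, k2, k3⟩ := h6 k
    rw [k1] at h4 h2
    rw [List.append_nil] at h2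
    refine ⟨by omega, Or.inl ⟨rfl, fun x a => ?_⟩⟩
    rcases List.mem_cons.1 a with rfl | a
    · exact ⟨k2, by rw [h.mem, ← wk_nil.1 h4, ← h.mem]; exact k⟩
    · exact ⟨h5 x (h2 ▸ a), k3 x (h2 ▸ a)⟩

theorem sp_mkIt {vx nu : Arr ℕ} {vx0 : ℕ → ℕ} {S : List ℕ} {o : ℕ} {w : List ℕ} (J : List It)
    (hnu : ∀ v, nu.get v ≠ 0 ↔ v ∈ S) (hc : Chg vx.get vx0 S)
    (hw : Wk vx0 (vx0 o) w (vx0 (rv o))) :
    Sp g (mkIt vx nu o w J) fun r t => t ≤ 3 * w.length + 3 ∧
      ((r = J ∧ ∀ o' ∈ o :: w, vx.get o' ∉ S ∧ vx.get (rv o') ∉ S) ∨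
       (¬(∀ o' ∈ o :: w, vx.get o' ∉ S ∧ vx.get (rv o') ∉ S) ∧
        ∃ A B ra ub, r = (o, A, B, ra, ub) :: J ∧ A ∈ S ∧ B ∈ S ∧ Wk vx.get A ra (vx.get o) ∧
          Wk vx.get (vx.get (rv o)) ub B ∧ ra.length + ub.length ≤ w.length ∧
          (∀ v, cnt vx.get v (ra ++ o :: ub) ≤ cnt vx.get v (o :: w)) ∧
          ∀ o' ∈ ra ++ ub, rv o' ∈ w ∧ ¬(vx0 o' ∈ S ∧ vx0 (rv o') ∈ S))) :=
  (sp_mkIt' hc hnu hw J).mono fun _ _ h => ⟨by omega, h.2.imp id fun ⟨i, e, p, x, a, b⟩ => by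
    obtain ⟨o', A, B, ra, ub⟩ := i
    obtain rfl : o' = o := p.fst
    exact ⟨fun k => b.elim (k x a).1 (k x a).2, A, B, ra, ub, e, p.ma, p.mb, p.wa, p.wb, p.len,
      p.cnt _, fun y c => ⟨(p.old y c).1, fun d => (p.old y c).2.elim
        (fun z => z ((hc.mem _).2 d.1)) fun z => z ((hc.mem _).2 d.2)⟩⟩⟩

end proj

end Crest.Agent.N325.Ds
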