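import Crest.Agent.N325.Ds.Fin
import Crest.Agent.N325.Ds.Pre

/-!
# Row 325 (helper73): the batch spanner — construction
-/

set_option autoImplicit false

namespace Crest.Agent.N325.Ds

open Bf

variable {g : Gl} {bx : BI → R BO} {cls : ℕ → ℕ} {k : Cs} {Nx : ℕ → ℕ → Prop} {Gam : ℕ → ℕ}
  {gt : ℕ → ℤ} {la : ℕ → ℕ} {th : ℕ}

theorem sp_sortI (vx : Arr ℕ) {I : List ℕ} (hX : ∀ e ∈ I, 2 * e ≤ g.X) :
    Sp g (foldL (sortI vx) I ([], [])) fun r t => ∃ A B : List ℕ, (A ++ B).Perm I ∧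
      (∀ e ∈ A, vx.get (2 * e) ≠ vx.get (2 * e + 1)) ∧
      (∀ e ∈ B, vx.get (2 * e) = vx.get (2 * e + 1)) ∧
      r.1 = A.map (fun e => (2 * e, vx.get (2 * e), vx.get (2 * e + 1), [], [])) ∧
      r.2 = B.map (fun e => (2 * e, [])) ∧ t ≤ I.length + 1 := by
  refine (sp_foldL' (fun l r => (∀ e ∈ l, e ∈ I) ∧ ∃ A B : List ℕ, (A ++ B ++ l).Perm I ∧
      (∀ e ∈ A, vx.get (2 * e) ≠ vx.get (2 * e + 1)) ∧
      (∀ e ∈ B, vx.get (2 * e) = vx.get (2 * e + 1)) ∧
      r.1 = A.map (fun e => (2 * e, vx.get (2 * e), vx.get (2 * e + 1), [], [])) ∧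
      r.2 = B.map (fun e => (2 * e, []))) (fun _ => 0) ?_ (l := I) (s := ([], []))
      ⟨fun _ h => h, [], [], by simp, by simp, by simp, rfl, rfl⟩).mono ?_
  · rintro e l r ⟨h0, A, B, h1, h2, h3, h4, h5⟩
    simp only [sortI, sp_bind, sp_nat, sp_pure]
    refine ⟨hX e (h0 e List.mem_cons_self), ⟨fun x hx => h0 x (List.mem_cons_of_mem _ hx), ?_⟩,
      le_rfl⟩
    split_ifs with c
    · refine ⟨A, e :: B, List.Perm.trans ?_ h1, h2, List.forall_mem_cons.2 ⟨c, h3⟩, h4,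
        by rw [h5]; rfl⟩
      rw [List.append_assoc, List.append_assoc]
      exact (List.perm_middle (l₁ := B)).symm.append_left A
    · refine ⟨e :: A, B, List.Perm.trans ?_ h1, List.forall_mem_cons.2 ⟨c, h2⟩, h3,
        by rw [h4]; rfl, h5⟩
      exact (List.perm_middle (l₁ := A ++ B)).symm
  · rintro r t ⟨⟨-, A, B, h1, h⟩, ht⟩
    exact ⟨A, B, by simpa using h1, h.1, h.2.1, h.2.2.1, h.2.2.2, by simpa using ht⟩

/-- double counting of the tails -/
theorem len_le_mul {f : ℕ → ℕ → ℕ} {A W : List ℕ} {D : ℕ} (h1 : ∀ e ∈ A, ∃ v ∈ W, 0 < f v e)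
    (h2 : ∀ v, (A.map (f v)).sum ≤ D) : A.length ≤ W.length * D := by
  have e1 : A.length ≤ (A.map fun e => (W.map fun v => f v e).sum).sum := by
    rw [← List.length_map (f := fun e => (W.map fun v => f v e).sum), ← mul_one (List.length _),
      ← smul_eq_mul]
    refine List.card_nsmul_le_sum _ _ fun x hx => ?_
    obtain ⟨e, he, rfl⟩ := List.mem_map.1 hx
    obtain ⟨v, hv, c⟩ := h1 e he
    exact c.trans_le (List.single_le_sum (fun _ _ => Nat.zero_le _) _ (List.mem_map_of_mem hv))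
  have e2 : (A.map fun e => (W.map fun v => f v e).sum).sum = (W.map fun v => (A.map (f v)).sum).sum := by
    clear e1 h1 h2
    induction W with
    | nil => simp
    | cons v W ih => simp only [List.map_cons, List.sum_cons, List.sum_map_add, ih]
  refine e1.trans (e2.trans_le ?_)
  rw [← List.length_map (f := fun v => (A.map (f v)).sum), ← smul_eq_mul]
  refine List.sum_le_card_nsmul _ _ fun x hx => ?_
  obtain ⟨v, -, rfl⟩ := List.mem_map.1 hx
  exact h2 v

theorem chain_mono {p : ℕ × ℕ} {pr : List (ℕ × ℕ)}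
    (h : (p :: pr).IsChain fun y x => Nx y.1 x.1 ∧ y.1 ≤ x.1 ∧ y.2 + y.2 * Gam x.1 ≤ x.2) :
    ∀ q ∈ p :: pr, p.1 ≤ q.1 ∧ p.2 ≤ q.2 := by
  induction pr generalizing p with
  | nil => simp
  | cons a l ih =>
    obtain ⟨h1, h2⟩ := List.isChain_cons_cons.1 h
    refine List.forall_mem_cons.2 ⟨⟨le_rfl, le_rfl⟩, fun q hq => ?_⟩
    have := ih h2 q hq
    omega

theorem val_zero {b : ℕ} {l : List Lv} (h : ∀ y ∈ l, y.cnt = 0) : val b l = 0 := by
  induction l with
  | nil => rfl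
  | cons y l ih =>
    rw [val, h y List.mem_cons_self, ih fun z hz => h z (List.mem_cons_of_mem _ hz)]; rfl

/-- **construction** -/
theorem sp_build (hb : BoxSpec g bx cls k Nx Gam) (hcls : ∀ o, cls (rv o) = cls o)
    {vx : Arr ℕ} {I V : List ℕ} {P D0 D1 : ℕ} {pr : List (ℕ × ℕ)}
    (hI : I.Nodup) (hX : ∀ e ∈ I, 2 * e ≤ g.X) (hV : ∀ v ∈ V, v < k.nV)
    (hIV : ∀ e ∈ I, vx.get (2 * e) ≠ vx.get (2 * e + 1) →
      vx.get (2 * e) ∈ V ∧ vx.get (2 * e + 1) ∈ V)
    (hD : ∀ v, (I.map fun e => cnt vx.get v [2 * e]).sum ≤ D0) (hN : Nx 0 P)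
    (hD1 : D0 + D0 * Gam P ≤ D1)
    (hpr : ((P, D1) :: pr).IsChain fun y x => Nx y.1 x.1 ∧ y.1 ≤ x.1 ∧ y.2 + y.2 * Gam x.1 ≤ x.2)
    (hpr' : ∀ p ∈ (P, D1) :: pr, p.1 ≤ k.LM ∧ p.2 ≤ k.DD) :
    Sp g (build bx vx I V P D0 D1 pr) fun r t =>
      Inv k Nx Gam cls gt la th pr.length vx.get r.1 0 ∧ (∀ e, r.1.al.get e = true ↔ e ∈ I) ∧
      r.2.Nodup ∧ (∀ e, r.1.pub e ↔ e ∈ r.2) ∧ r.2.length ≤ k.cH * (V.length + 1) ∧
      k.rc r.1 = 0 ∧
      t + k.Phi r.1 ≤ (k.Cb + 2 * k.LM + 20) * (I.length + 1) + (k.cH + 1) * (V.length + 1) +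
        pr.length := by
  refine (sp_numS V).bind fun a t1 ⟨_, a2, a3, a4, a5, a6, a7, T1⟩ => ?_
  refine (sp_sortI vx hX).bind fun J t2 ⟨A, B, p, hA, hB, e1, e2, T2⟩ => ?_
  have nd := p.nodup_iff.2 hI
  have mA : ∀ e ∈ A, e ∈ I := fun e h => p.mem_iff.1 (List.mem_append_left _ h)
  have lAB : A.length + B.length = I.length := by simpa using p.length_eq
  have sAB : ∀ v, (A.map fun e => cnt vx.get v [2 * e]).sum +
      (B.map fun e => cnt vx.get v [2 * e]).sum ≤ D0 := fun v => by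
    rw [← List.sum_append, ← List.map_append, (p.map _).sum_eq]; exact hD v
  have d2 : ∀ e : ℕ, 2 * e / 2 = e := fun e => by omega
  have eB : (J.2.map fun x => x.1 / 2) = B := by
    rw [e2, List.map_map]; simp [Function.comp_def]
  have eA : J.1.map Prod.fst = A.map (2 * ·) := by rw [e1, List.map_map]; rfl
  have hP := hpr' _ List.mem_cons_self
  refine (sp_setW vx (Arr.cst []) (Arr.cst []) (W := J.2) (P := 0)
    (eB ▸ (List.nodup_append.1 nd).2.1) fun x hx => ?_).bind fun c t3 ⟨c1, _, c3, _, c5, T3⟩ => ?_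
  · rw [e2] at hx
    obtain ⟨e, -, rfl⟩ := List.mem_map.1 hx
    exact le_rfl
  have nV : a.2.1 ≤ k.nV := by
    rw [← a6, ← List.toFinset_card_of_nodup a4, ← Finset.card_range k.nV]
    exact Finset.card_le_card fun v hv =>
      Finset.mem_range.2 (hV v ((a5 v).1 (List.mem_toFinset.1 hv)))
  refine (sp_fin hb hcls (vx := vx) (nu := a.1) (al := fun e => decide (e ∈ I)) (n := a.2.1 + 1)
    (P := P) (D := D0) (lam := 0) (J := J.1) (S := (· ∈ V)) (sn := ⟨c.1, c.2, Arr.cst false⟩)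
    (Nat.succ_pos _) (Nat.succ_le_succ nV) hP.1 (by have := hP.2; omega) hN
    (fun v _ => Nat.lt_succ_of_le (a2 v)) (fun u v hu hv => a3 u hu v hv) (fun i hi => ?_)
    (fun i hi => ?_) ?_ (fun v => ?_) ?_).bind
    fun r t4 ⟨r1, r2, r3, r4, r5, _, r7, r8, r9, r10, T4⟩ => ?_
  · rw [e1] at hi
    obtain ⟨e, he, rfl⟩ := List.mem_map.1 hi
    have := hIV e (mA e he) (hA e he)
    exact ⟨this.1, this.2, rfl, by rw [rv_two]; rfl, le_rfl, fun _ h => nomatch h⟩
  · rw [e1] at hi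
    obtain ⟨e, he, rfl⟩ := List.mem_map.1 hi
    exact ⟨by simp, by simpa using mA e he, rfl⟩
  · rw [eA]
    exact (List.nodup_append.1 nd).1.map fun x y h => by simpa using h
  · rw [e1, List.map_map]
    exact (Nat.le_add_right _ _).trans (sAB v)
  · rw [e1, List.length_map]
    refine (len_le_mul (f := fun v e => cnt vx.get v [2 * e]) (W := a.2.2) (fun e he => ?_)
      fun v => (Nat.le_add_right _ _).trans (sAB v)).trans ?_
    · exact ⟨_, (a5 _).2 (hIV e (mA e he) (hA e he)).1, cnt_pos List.mem_cons_self (.inl rfl)⟩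
    · rw [a6]; exact Nat.mul_le_mul_right _ (Nat.le_succ _)
  refine (sp_setAllP _ I _).bind fun al t5 ⟨hal, T5⟩ => (sp_foldP _ pr _).bind fun ls t6 ⟨e6, T6⟩ => ?_
  have eal : al.get = fun e => decide (e ∈ I) := funext fun e => by
    rw [hal]; by_cases h : e ∈ I <;> simp [h]
  have mal : ∀ e, al.get e = true ↔ e ∈ I := fun e => by simp [eal]
  have els : ls = (((P, D1) :: pr).map fun p => (⟨0, p.1, p.2, r.1, [], []⟩ : Lv)).reverse := by
    rw [e6, foldl_cons_map (fun p : ℕ × ℕ => (⟨0, p.1, p.2, r.1, [], []⟩ : Lv))]; simp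
  have mls : ∀ y ∈ ls, ∃ p ∈ (P, D1) :: pr, y = ⟨0, p.1, p.2, r.1, [], []⟩ := fun y hy => by
    rw [els, List.mem_reverse] at hy
    obtain ⟨p, hp, rfl⟩ := List.mem_map.1 hy
    exact ⟨p, hp, rfl⟩
  have lls : ls.length = pr.length + 1 := by simp [els]
  obtain ⟨q, -, ecur⟩ : ∃ p ∈ (P, D1) :: pr, ls.headD lv0 = ⟨0, p.1, p.2, r.1, [], []⟩ := by
    cases ls with
    | nil => simp at lls
    | cons y l => exact mls y List.mem_cons_self
  have mr : ∀ e, e ∈ r.2.2 ↔ e ∈ A := fun e => by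
    rw [r5, eA]; simp
  have sn : SnOk cls vx.get al.get r.1 P D1 [] := by
    refine ⟨vx.get, ⟨fun _ _ h => h, fun _ h => absurd rfl h⟩, fun v => ?_, fun e he _ => ?_⟩
    · refine (r10 v).trans (le_trans (Nat.add_le_add_right ?_ _) hD1)
      change (c.2.get v).length ≤ D0
      rw [c3, e2, List.map_map]
      simpa [Function.comp_def] using (Nat.le_add_left _ _).trans (sAB v)
    · by_cases h : e ∈ r.2.2
      · exact eal ▸ r7 e h
      · have hb' : e ∈ B :=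
          (List.mem_append.1 (p.mem_iff.2 ((mal e).1 he))).resolve_left fun c => h ((mr e).2 c)
        have hx : (2 * e, ([] : List ℕ)) ∈ J.2 := e2 ▸ List.mem_map_of_mem hb'
        have hw : r.1.w.get e = [] := by
          rw [r8 e h]; have := c1 _ hx; rwa [d2] at this
        refine ⟨by rw [hw]; exact hB e hb', by simp [hw], by simp [hw], fun v => ?_⟩
        rw [hw]
        exact (c5 _ hx v).trans (r9 v _)
  have ph : ∀ l : List Lv, (∀ y ∈ l, y ∈ ls) → phi k.b l = 0 ∧ psi l = 0 := fun l hl => by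
    refine ⟨List.sum_eq_zero fun x hx => ?_, List.sum_eq_zero fun x hx => ?_⟩ <;>
      obtain ⟨y, hy, rfl⟩ := List.mem_map.1 hx <;> obtain ⟨p, -, rfl⟩ := mls y (hl y hy) <;> rfl
  have ph1 := (ph ls.tail fun y hy => List.mem_of_mem_tail hy).1
  have ph2 := (ph ls fun _ h => h).2
  refine ⟨⟨lls, fun y hy => ?_, ?_, by rw [St.cur, ecur], val_zero fun y hy => ?_,
    fun e he _ h => absurd ((mal e).1 he) h⟩, mal, r2, fun e => ?_,
    r4.trans (Nat.mul_le_mul_left _ (Nat.succ_le_succ a7)), ?_, ?_⟩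
  · obtain ⟨p, hp, rfl⟩ := mls y hy
    obtain ⟨vx0, s1, s2, s3⟩ := sn
    have m := chain_mono hpr p hp
    exact ⟨⟨vx0, s1, fun v => (s2 v).trans m.2, fun e u v =>
      ⟨(s3 e u v).wk, (s3 e u v).len.trans m.1, (s3 e u v).pub, (s3 e u v).ix⟩⟩,
      (hpr' p hp).1, (hpr' p hp).2, Nat.zero_le _, fun _ h => nomatch h⟩
  · change ls.IsChain _
    rw [els, List.isChain_reverse, List.isChain_map]
    exact hpr.imp fun y x h => ⟨fun _ h => h, fun e => by simp, fun _ h => (nomatch h),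
      List.nodup_nil, fun e _ u _ => ⟨rfl, u⟩, h.1, h.2.1, h.2.2⟩
  · obtain ⟨p, -, rfl⟩ := mls y (List.mem_of_mem_tail hy)
    rfl
  · rw [St.pub, St.cur, ecur]
    change al.get e = true ∧ r.1.h.get e = true ↔ e ∈ r.2.1
    rw [r1, mal]
    exact ⟨fun h => h.2.resolve_left (by simp), fun h => ⟨mA e ((mr e).1 (r3 e h)), .inr h⟩⟩
  · simp only [Cs.rc, ph1, ph2, mul_zero]
  · simp only [Cs.Phi, ph1, ph2, mul_zero, zero_add, add_zero]
    have l1 : J.1.length = A.length := by rw [e1, List.length_map]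
    have l2 : J.2.length = B.length := by rw [e2, List.length_map]
    have u1 : (k.Cb + k.LM + 8) * (J.1.length + 1) ≤ (k.Cb + k.LM + 8) * (I.length + 1) :=
      Nat.mul_le_mul_left _ (by omega)
    have u2 : k.cH * (a.2.1 + 1) ≤ k.cH * (V.length + 1) := Nat.mul_le_mul_left _ (by omega)
    have u3 : (k.Cb + 2 * k.LM + 20) * (I.length + 1) =
        (k.Cb + k.LM + 8) * (I.length + 1) + (k.LM + 4) * I.length + 8 * I.length + k.LM + 12 := by
      ring
    rw [u3, add_mul k.cH]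
    omega

end Crest.Agent.N325.Ds
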