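import Crest.Agent.N325.Ds.Defs

/-!
# Row 325 (helper31): the batch spanner — recording the result of the box
-/

set_option autoImplicit false

namespace Crest.Agent.N325.Ds

open Bf

variable {g : Gl}

/-! ## flags -/

theorem foldl_setH (H : List ℕ) (h : Arr Bool) (s : Arr Bool × List ℕ)
    (a : ∀ e, s.1.get e = true ↔ h.get e = true ∨ e ∈ s.2) (b : ∀ e ∈ s.2, h.get e = false)
    (n : s.2.Nodup) (r : Arr Bool × List ℕ)
    (hr : r = H.foldl (fun s o => if s.1.get (o / 2) = true then s else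
      (s.1.set (o / 2) true, o / 2 :: s.2)) s) :
    (∀ e, r.1.get e = true ↔ h.get e = true ∨ e ∈ r.2) ∧ (∀ e ∈ r.2, h.get e = false) ∧
      r.2.Nodup ∧ (∀ e ∈ r.2, e ∈ s.2 ∨ ∃ y ∈ H, y / 2 = e) ∧
      (∀ e, s.1.get e = true → r.1.get e = true) ∧ (∀ y ∈ H, r.1.get (y / 2) = true) ∧
      r.2.length ≤ s.2.length + H.length := by
  induction H generalizing s with
  | nil =>
    subst hr
    exact ⟨a, b, n, fun e k => Or.inl k, fun _ k => k, by simp, by simp⟩
  | cons o H ih =>
    rw [List.foldl_cons] at hr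
    by_cases c : s.1.get (o / 2) = true
    · rw [if_pos c] at hr
      obtain ⟨i1, i2, i3, i4, i5, i6, i7⟩ := ih s a b n hr
      refine ⟨i1, i2, i3, fun e k => (i4 e k).imp_right fun ⟨y, m, q⟩ =>
        ⟨y, List.mem_cons_of_mem _ m, q⟩, i5, fun y m => ?_, by rw [List.length_cons]; omega⟩
      rcases List.mem_cons.1 m with rfl | m
      · exact i5 _ c
      · exact i6 y m
    · rw [if_neg c] at hr
      have c' := mt (a (o / 2)).2 c
      rw [not_or] at c'
      obtain ⟨i1, i2, i3, i4, i5, i6, i7⟩ := ih (s.1.set (o / 2) true, o / 2 :: s.2) (fun e => by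
        simp only [Arr.get_set, List.mem_cons]
        by_cases k : e = o / 2 <;> simp [k, a]) (fun e k => by
        rcases List.mem_cons.1 k with rfl | k
        · simpa using c'.1
        · exact b e k) (List.nodup_cons.2 ⟨c'.2, n⟩) hr
      refine ⟨i1, i2, i3, fun e k => ?_, fun e k => i5 e ?_, fun y m => ?_, by
        simp only [List.length_cons] at i7 ⊢; omega⟩
      · rcases i4 e k with q | ⟨y, m, q⟩
        · rcases List.mem_cons.1 q with rfl | q
          · exact Or.inr ⟨o, List.mem_cons_self, rfl⟩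
          · exact Or.inl q
        · exact Or.inr ⟨y, List.mem_cons_of_mem _ m, q⟩
      · simp only [Arr.get_set]
        split_ifs
        · rfl
        · exact k
      · rcases List.mem_cons.1 m with rfl | m
        · exact i5 _ (by simp)
        · exact i6 y m

theorem sp_setH (H : List ℕ) (h : Arr Bool) :
    Sp g (setH H h) fun r t => (∀ e, r.1.get e = true ↔ h.get e = true ∨ e ∈ r.2) ∧
      (∀ e ∈ r.2, h.get e = false) ∧ r.2.Nodup ∧ (∀ e ∈ r.2, ∃ y ∈ H, y / 2 = e) ∧
      (∀ y ∈ H, r.1.get (y / 2) = true) ∧ r.2.length ≤ H.length ∧ t = H.length + 1 :=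
  (sp_foldP _ H _).mono fun r t k => by
    obtain ⟨i1, i2, i3, i4, -, i6, i7⟩ := foldl_setH H h (h, []) (by simp) (by simp)
      List.nodup_nil r k.1
    exact ⟨i1, i2, i3, fun e m => by simpa using i4 e m, i6, by simpa using i7, k.2⟩

/-! ## walks and index -/

theorem get_push (a : Arr (List ℕ)) (v e u : ℕ) :
    (push a v e).get u = if v = u then e :: a.get u else a.get u := by
  unfold push; rw [Arr.get_set]; split_ifs <;> simp_all

theorem foldl_push (vx : Arr ℕ) (e : ℕ) (l : List ℕ) (a : Arr (List ℕ)) (u : ℕ) :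
    (l.foldl (fun a o => push (push a (vx.get o) e) (vx.get (rv o)) e) a).get u =
      List.replicate (cnt vx.get u l) e ++ a.get u := by
  induction l generalizing a with
  | nil => simp
  | cons o l ih =>
    rw [List.foldl_cons, ih, get_push, get_push, cnt_cons, add_comm _ (cnt vx.get u l),
      ← List.replicate_append_replicate]
    split_ifs <;> simp [List.replicate]

theorem sp_setW (vx : Arr ℕ) {W : List (ℕ × List ℕ)} (w ix : Arr (List ℕ)) {P : ℕ}
    (n : (W.map fun x => x.1 / 2).Nodup) (hP : ∀ x ∈ W, x.2.length ≤ P) :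
    Sp g (setW vx W w ix) fun r t => (∀ x ∈ W, r.1.get (x.1 / 2) = x.2) ∧
      (∀ e, e ∉ W.map (fun x => x.1 / 2) → r.1.get e = w.get e) ∧
      (∀ v, (r.2.get v).length = (ix.get v).length + (W.map fun x => cnt vx.get v (x.1 :: x.2)).sum) ∧
      (∀ v o, (ix.get v).count o ≤ (r.2.get v).count o) ∧
      (∀ x ∈ W, ∀ v, cnt vx.get v (x.1 :: x.2) ≤ (r.2.get v).count x.1) ∧
      t ≤ W.length * (P + 3) + 1 := by
  refine (sp_foldL' (fun l s => ∃ l0, l0 ++ l = W ∧ (∀ x ∈ l0, s.1.get (x.1 / 2) = x.2) ∧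
      (∀ e, e ∉ l0.map (fun x => x.1 / 2) → s.1.get e = w.get e) ∧
      (∀ v, (s.2.get v).length =
        (ix.get v).length + (l0.map fun x => cnt vx.get v (x.1 :: x.2)).sum) ∧
      (∀ v o, (ix.get v).count o ≤ (s.2.get v).count o) ∧
      ∀ x ∈ l0, ∀ v, cnt vx.get v (x.1 :: x.2) ≤ (s.2.get v).count x.1) (fun _ => P + 2)
    (fun x l s ⟨l0, e, a1, a2, a3, a4, a5⟩ => (sp_foldP _ _ _).bind fun a t k => ?st) (l := W)
    (s := (w, ix)) ⟨[], rfl, by simp, by simp, by simp, by simp, by simp⟩).mono ?fi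
  case st =>
    have q : ∀ v, a.get v = List.replicate (cnt vx.get v (x.1 :: x.2)) x.1 ++ s.2.get v :=
      fun v => by rw [k.1, foldl_push]
    have nx : x.1 / 2 ∉ l0.map fun x => x.1 / 2 := by
      rw [← e, List.map_append, List.map_cons] at n
      exact fun m => List.disjoint_of_nodup_append n m List.mem_cons_self
    refine ⟨⟨l0 ++ [x], by simp [← e], fun y m => ?_, fun j m => ?_, fun v => ?_, fun v o => ?_,
      fun y m v => ?_⟩, ?_⟩
    · rcases List.mem_append.1 m with m | m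
      · rw [Arr.get_set_ne _ (fun c => nx (List.mem_map.2 ⟨y, m, c⟩)), a1 y m]
      · rw [List.mem_singleton.1 m, Arr.get_set_self]
    · rw [List.map_append, List.mem_append, not_or] at m
      rw [Arr.get_set_ne _ (fun c => m.2 (by simp [c])), a2 j m.1]
    · simp only [q, List.length_append, List.length_replicate, a3, List.map_append,
        List.sum_append, List.map_cons, List.map_nil, List.sum_cons, List.sum_nil]
      omega
    · simp only [q, List.count_append]
      have := a4 v o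
      omega
    · simp only [q, List.count_append]
      rcases List.mem_append.1 m with m | m
      · have := a5 y m v
        omega
      · rw [List.mem_singleton.1 m, List.count_replicate_self]
        omega
    · have := hP x (by simp [← e])
      rw [k.2, List.length_cons]
      omega
  case fi =>
    rintro r t ⟨⟨l0, e, a⟩, b⟩
    rw [List.append_nil] at e
    subst e
    refine ⟨a.1, a.2.1, a.2.2.1, a.2.2.2.1, a.2.2.2.2, ?_⟩
    simpa using b

/-! ## the box and its record -/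

variable {bx : BI → R BO} {cls : ℕ → ℕ} {k : Cs} {Nx : ℕ → ℕ → Prop} {Gam : ℕ → ℕ}

theorem rv_two (e : ℕ) : rv (2 * e) = 2 * e + 1 := by unfold rv; rw [if_pos (by omega)]

theorem sp_fin (hb : BoxSpec g bx cls k Nx Gam) (hcls : ∀ o, cls (rv o) = cls o)
    {vx nu : Arr ℕ} {al : ℕ → Bool} {n P D lam : ℕ} {J : List It} {S : ℕ → Prop} {sn : Sn}
    (h0 : 0 < n) (hn : n ≤ k.nV + 1) (hP : P ≤ k.LM) (hD : D ≤ k.DD) (hN : Nx lam P)
    (hlt : ∀ v, S v → nu.get v < n) (hinj : ∀ u v, S u → S v → nu.get u = nu.get v → u = v)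
    (hJ : ∀ i ∈ J, ItOk vx.get cls S
      (fun c o => sn.h.get (o / 2) = true ∧ al (o / 2) = true ∧ cls o = c) lam i)
    (hJ' : ∀ i ∈ J, i.1 % 2 = 0 ∧ al (i.1 / 2) = true ∧ sn.h.get (i.1 / 2) = false)
    (hnd : (J.map Prod.fst).Nodup)
    (hocc : ∀ v, (J.map fun i => cnt vx.get v (i.2.2.2.1 ++ i.1 :: i.2.2.2.2)).sum ≤ D)
    (hlen : J.length ≤ n * D) :
    Sp g (fin bx vx nu n P D J sn) fun r t =>
      (∀ e, r.1.h.get e = true ↔ sn.h.get e = true ∨ e ∈ r.2.1) ∧ r.2.1.Nodup ∧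
      (∀ e ∈ r.2.1, e ∈ r.2.2) ∧ r.2.1.length ≤ k.cH * n ∧
      (∀ e, e ∈ r.2.2 ↔ 2 * e ∈ J.map Prod.fst) ∧ r.2.2.length = J.length ∧
      (∀ e ∈ r.2.2, WOk cls vx.get al r.1 P [] e) ∧
      (∀ e, e ∉ r.2.2 → r.1.w.get e = sn.w.get e) ∧
      (∀ v o, (sn.ix.get v).count o ≤ (r.1.ix.get v).count o) ∧
      (∀ v, (r.1.ix.get v).length ≤ (sn.ix.get v).length + D * Gam P) ∧
      t ≤ (k.Cb + k.LM + 8) * (J.length + 1) + k.cH * n := by
  refine (hb vx nu n P D lam J S _ h0 hn hP hD hN hlt hinj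
    (fun c o h => by rw [rv_div, hcls]; exact h) hJ hocc hlen).bind fun r t1 ⟨B, T1⟩ => ?_
  have ev : ∀ o ∈ J.map Prod.fst, o % 2 = 0 ∧ al (o / 2) = true := fun o m => by
    obtain ⟨i, a, rfl⟩ := List.mem_map.1 m
    exact ⟨(hJ' i a).1, (hJ' i a).2.1⟩
  have mW : ∀ x ∈ r.2, x.1 ∈ J.map Prod.fst := fun x m =>
    B.perm.mem_iff.1 (List.mem_map_of_mem m)
  have lW : r.2.length = J.length := by simpa using B.perm.length_eq
  have nW : (r.2.map fun x => x.1 / 2).Nodup := by
    have : (r.2.map fun x => x.1 / 2) = (r.2.map Prod.fst).map (· / 2) := by simp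
    rw [this]
    refine (B.perm.nodup_iff.2 hnd).map_on fun a ha b hb' c => ?_
    have := (ev a (B.perm.mem_iff.1 ha)).1
    have := (ev b (B.perm.mem_iff.1 hb')).1
    omega
  have mem : ∀ e, e ∈ r.2.map (fun x => x.1 / 2) ↔ 2 * e ∈ J.map Prod.fst := fun e => by
    constructor
    · intro m
      obtain ⟨x, a, rfl⟩ := List.mem_map.1 m
      have := (ev _ (mW x a)).1
      rw [show 2 * (x.1 / 2) = x.1 by omega]
      exact mW x a
    · intro m
      obtain ⟨x, a, c⟩ := List.mem_map.1 (B.perm.mem_iff.2 m)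
      exact List.mem_map.2 ⟨x, a, by rw [c]; omega⟩
  refine (sp_setH r.1 sn.h).bind fun a t2 ⟨a1, _, a3, a4, a5, a6, T2⟩ =>
    (sp_setW vx sn.w sn.ix nW fun x m => (B.wk x m).2.1).bind
      fun c t3 ⟨c1, c2, c3, c4, c5, T3⟩ => (sp_mapP _ r.2).bind fun l t4 ⟨e4, T4⟩ => ?_
  subst e4
  refine ⟨a1, a3, fun e m => ?_, a6.trans B.len, mem, by simpa using lW, fun e m => ?_, c2, c4,
    fun v => by rw [c3]; exact Nat.add_le_add_left (B.occ v) _, ?_⟩
  · obtain ⟨y, b, rfl⟩ := a4 e m
    have := (ev y (B.sub y b)).1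
    rw [mem, show 2 * (y / 2) = y by omega]
    exact B.sub y b
  · obtain ⟨x, b, rfl⟩ := List.mem_map.1 m
    have q : 2 * (x.1 / 2) = x.1 := by have := (ev _ (mW x b)).1; omega
    obtain ⟨w1, w2, w3⟩ := B.wk x b
    have hw : c.1.get (x.1 / 2) = x.2 := c1 x b
    refine ⟨?_, by rw [hw]; exact w2, fun o ho => ?_, fun v => ?_⟩
    · rw [← rv_two, q]
      exact hw ▸ w1
    · rw [q]
      rcases w3 o (hw ▸ ho) with ⟨o1, o2, o3⟩ | ⟨o1, y, o2, o3⟩
      · exact ⟨(a1 _).2 (Or.inl o1), o3, fun d => by rw [o2] at d; cases d⟩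
      · refine ⟨o3 ▸ a5 y o2, o1, fun d => ?_⟩
        rw [← o3, (ev y (B.sub y o2)).2] at d
        cases d
    · rw [q]
      exact hw ▸ c5 x b v
  · have := B.len
    have : J.length * (P + 3) ≤ J.length * (k.LM + 3) := Nat.mul_le_mul_left _ (by omega)
    rw [lW] at T3 T4
    simp only [add_mul, mul_add] at *
    rw [mul_comm k.LM]
    omega

end Crest.Agent.N325.Ds
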