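import Crest.Agent.N325.Ds.Defs

/-!
# Row 325 (helper35): the odometer of the batch spanner
-/

set_option autoImplicit false

namespace Crest.Agent.N325.Ds

open Bf

variable {g : Gl} {bx : BI → R BO} {cls : ℕ → ℕ} {k : Cs} {Nx : ℕ → ℕ → Prop} {Gam : ℕ → ℕ}

/-- the specification of `recomp` -/
def RecSpec (g : Gl) (bx : BI → R BO) (cls : ℕ → ℕ) (k : Cs) (Nx : ℕ → ℕ → Prop)
    (Gam : ℕ → ℕ) : Prop :=
  ∀ {vx : Arr ℕ} {al : Arr Bool} {P : ℕ} {y : Lv}, LvOk k cls vx.get al.get y → P ≤ k.LM →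
    Nx y.lm P → y.lm ≤ P →
    Sp g (recomp bx vx al P y) fun r t =>
      SnOk cls vx.get al.get r.1 P (y.dd + y.dd * Gam P) [] ∧
      (∀ e, r.1.h.get e = true ↔ y.sn.h.get e = true ∨ e ∈ r.2.1) ∧
      (∀ e ∈ r.2.1, y.sn.h.get e = false ∧ al.get e = true ∧ e ∈ r.2.2) ∧ r.2.1.Nodup ∧
      r.2.1.length ≤ k.cH * (y.S.length + 1) ∧ r.2.2.length ≤ k.DD * y.S.length ∧
      (∀ e, al.get e = true → y.sn.h.get e = false → (e ∉ r.2.2 ↔ Un vx.get y.sn y.S e)) ∧
      (∀ e, e ∉ r.2.2 → r.1.w.get e = y.sn.w.get e) ∧ t ≤ k.Cr * (y.S.length + 1)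

theorem SnOk.mono {vx : ℕ → ℕ} {al : ℕ → Bool} {sn : Sn} {lm dd lm' dd' : ℕ} {S : List ℕ}
    (h : SnOk cls vx al sn lm dd S) (a : lm ≤ lm') (b : dd ≤ dd') : SnOk cls vx al sn lm' dd' S := by
  obtain ⟨vx0, h1, h2, h3⟩ := h
  exact ⟨vx0, h1, fun v => (h2 v).trans b, fun e p q =>
    ⟨(h3 e p q).wk, (h3 e p q).len.trans a, (h3 e p q).pub, (h3 e p q).ix⟩⟩

theorem Lk.un' {vx : ℕ → ℕ} {al : ℕ → Bool} {x y : Lv} (h : Lk Nx Gam vx al x y) {e : ℕ}
    (a : al e = true) (b : y.sn.h.get e = false) (c : Un vx y.sn y.S e) : Un vx x.sn x.S e := by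
  intro o ho
  rw [(h.un e a b c).1] at ho
  exact ⟨fun q => (c o ho).1 (h.sub _ q), fun q => (c o ho).2 (h.sub _ q)⟩

/-- the result of the odometer on `x :: l` -/
structure GoRes (k : Cs) (cls : ℕ → ℕ) (Nx : ℕ → ℕ → Prop) (Gam : ℕ → ℕ) (vx : ℕ → ℕ)
    (al : ℕ → Bool) (x : Lv) (l : List Lv) (x' : Lv) (l' : List Lv) (out new ts : List ℕ)
    (t m : ℕ) : Prop where
  len : l'.length = l.length
  S : x'.S = []
  cnt : x'.cnt = 0
  lm : x'.lm = x.lm
  dd : x'.dd = x.dd
  ok : ∀ y ∈ x' :: l', LvOk k cls vx al y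
  lk : (x' :: l').IsChain (Lk Nx Gam vx al)
  val : val k.b l' = val k.b l + 1
  ond : out.Nodup
  oh : ∀ e ∈ out, x.sn.h.get e = true
  nnd : new.Nodup
  nw : ∀ e ∈ new, al e = true ∧ ¬(x.sn.h.get e = true ∧ e ∉ out)
  h : ∀ e, x'.sn.h.get e = true ↔ (x.sn.h.get e = true ∧ e ∉ out) ∨ e ∈ new
  un : ∀ e, al e = true → x'.sn.h.get e = false → e ∉ ts →
    x.sn.h.get e = false ∧ x'.sn.w.get e = x.sn.w.get e ∧ Un vx x.sn x.S e
  phi : phi k.b l' + m = phi k.b l
  psi : psi (x' :: l') + out.length = psi (x :: l) + new.length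
  nl : new.length ≤ k.cH * (m + 1)
  tl : ts.length ≤ k.DD * m
  tm : t ≤ k.Cr * (m + 1) + out.length + 2 * l.length

theorem val_lt {b : ℕ} {y : Lv} {l : List Lv} (h : val b (y :: l) + 1 < (b + 1) ^ (y :: l).length)
    (hy : b ≤ y.cnt) : val b l + 1 < (b + 1) ^ l.length := by
  rw [List.length_cons, pow_succ, val] at h
  by_contra q
  have := Nat.mul_le_mul_right (b + 1) (not_lt.1 q)
  nlinarith

theorem sp_go (hr : RecSpec g bx cls k Nx Gam) {vx : Arr ℕ} {al : Arr Bool} (l : List Lv) :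
    ∀ x : Lv, (∀ y ∈ x :: l, LvOk k cls vx.get al.get y) →
      (x :: l).IsChain (Lk Nx Gam vx.get al.get) → val k.b l + 1 < (k.b + 1) ^ l.length →
      Sp g (go bx k.b vx al (x :: l)) fun r t => ∃ x' l' m, r.1 = x' :: l' ∧
        GoRes k cls Nx Gam vx.get al.get x l x' l' r.2.1 r.2.2.1 r.2.2.2 t m := by
  induction l with
  | nil => intro x _ _ h; simp [val] at h
  | cons y l ih =>
    intro x ok lk hv
    obtain ⟨xy, lk'⟩ := List.isChain_cons_cons.1 lk
    have okx := ok x List.mem_cons_self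
    have oky := ok y (List.mem_cons_of_mem _ List.mem_cons_self)
    have hxo : ∀ e, (x.sn.h.get e = true ∧ e ∉ x.hl) ↔ y.sn.h.get e = true := fun e => by
      rw [xy.h]
      exact ⟨fun q => q.1.resolve_right q.2, fun q => ⟨Or.inl q, fun q' => by
        rw [xy.dj e q'] at q; cases q⟩⟩
    rw [go]
    refine sp_ite.2 ⟨fun c => ?_, fun c => ?_⟩
    · refine (hr oky okx.lm xy.nx xy.le).bind fun r t ⟨r1, r2, r3, r4, r5, r6, r7, r8, r9⟩ => ?_
      refine ⟨_, _, y.S.length, rfl, rfl, rfl, rfl, rfl, rfl, fun z hz => ?_, ?_, ?_, xy.nd,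
        fun e q => (xy.h e).2 (Or.inr q), r4, fun e q => ⟨(r3 e q).2.1, fun q' => ?_⟩,
        fun e => ?_, fun e a b c' => ?_, ?_, ?_, r5, r6, ?_⟩
      · rcases List.mem_cons.1 hz with rfl | hz
        · exact ⟨r1.mono le_rfl xy.dd, okx.lm, okx.dd, Nat.zero_le _, fun v q => (nomatch q)⟩
        rcases List.mem_cons.1 hz with rfl | hz
        · exact ⟨oky.sn, oky.lm, oky.dd, c, oky.lt⟩
        · exact ok z (List.mem_cons_of_mem _ (List.mem_cons_of_mem _ hz))
      · refine List.isChain_cons_cons.2 ⟨⟨fun v q => (nomatch q), r2, fun e q => (r3 e q).1, r4,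
          fun e a b u => ?_, xy.nx, xy.le, xy.dd⟩, ?_⟩
        · have q := (r7 e a b).2 u
          refine ⟨r8 e q, Bool.eq_false_iff.2 fun q' => ?_⟩
          rcases (r2 e).1 q' with q' | q'
          · rw [b] at q'; cases q'
          · exact q (r3 e q').2.2
        · cases l with
          | nil => exact List.isChain_singleton _
          | cons z l =>
            obtain ⟨yz, lk''⟩ := List.isChain_cons_cons.1 lk'
            exact List.isChain_cons_cons.2
              ⟨⟨yz.sub, yz.h, yz.dj, yz.nd, yz.un, yz.nx, yz.le, yz.dd⟩, lk''⟩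
      · simp only [val]; omega
      · have := (hxo e).1 q'
        rw [(r3 e q).1] at this; cases this
      · rw [hxo]; exact r2 e
      · have b' : y.sn.h.get e = false := Bool.eq_false_iff.2 fun q => by
          rw [(r2 e).2 (Or.inl q)] at b; cases b
        have u := (r7 e a b').1 c'
        exact ⟨(xy.un e a b' u).2, (r8 e c').trans (xy.un e a b' u).1.symm, xy.un' a b' u⟩
      · simp only [phi, List.map_cons, List.sum_cons]
        obtain ⟨d, hd⟩ := Nat.exists_eq_add_of_lt c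
        rw [show k.b - (y.cnt + 1) = d by omega, show k.b - y.cnt = d + 1 by omega]; ring
      · simp only [psi, List.map_cons, List.sum_cons]; omega
      · omega
    · rw [sp_bind, sp_call]
      refine (ih y (fun z hz => ok z (List.mem_cons_of_mem _ hz)) lk'
        (val_lt hv (not_lt.1 c))).mono fun r t ⟨y', l', m, e, G⟩ => ?_
      refine (sp_revAppL _ _).bind fun out t' ⟨eo, et⟩ => ?_
      have oky' := G.ok y' List.mem_cons_self
      have mo : ∀ e, e ∈ out ↔ e ∈ x.hl ∨ e ∈ r.2.1 := fun e => by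
        rw [eo, List.mem_append, List.mem_reverse]
      have hxo' : ∀ e, (x.sn.h.get e = true ∧ e ∉ out) ↔ (y.sn.h.get e = true ∧ e ∉ r.2.1) :=
        fun e => by rw [mo, ← hxo, not_or, and_assoc]
      refine ⟨_, r.1, m, rfl, ?_⟩
      rw [e, List.headD_cons]
      refine ⟨by rw [List.length_cons, G.len]; rfl, rfl, rfl, rfl, rfl, fun z hz => ?_, ?_, ?_, ?_,
        fun e q => ?_, G.nnd, fun e q => ⟨(G.nw e q).1, by rw [hxo']; exact (G.nw e q).2⟩,
        fun e => by rw [hxo']; exact G.h e, fun e a b c' => ?_, ?_, ?_, G.nl, G.tl, ?_⟩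
      · rcases List.mem_cons.1 hz with rfl | hz
        · refine ⟨?_, okx.lm, okx.dd, Nat.zero_le _, fun v q => (nomatch q)⟩
          have := oky'.sn
          rw [G.S] at this
          exact this.mono (G.lm ▸ xy.le) (G.dd ▸ (Nat.le_add_right _ _).trans xy.dd)
        · exact G.ok z hz
      · exact List.isChain_cons_cons.2 ⟨⟨fun v q => (nomatch q), fun e => (by simp),
          fun e q => (nomatch q), List.nodup_nil, fun e _ b _ => ⟨rfl, b⟩, G.lm ▸ xy.nx,
          G.lm ▸ xy.le, G.dd ▸ xy.dd⟩, G.lk⟩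
      · have := oky.cnt
        simp only [val, G.cnt, G.val]
        rw [show y.cnt = k.b by omega]; ring
      · rw [eo]
        refine List.Nodup.append (List.nodup_reverse.2 xy.nd) G.ond fun e a b => ?_
        have := G.oh e b
        rw [xy.dj e (List.mem_reverse.1 a)] at this; cases this
      · exact (xy.h e).2 (((mo e).1 q).symm.imp_left (G.oh e))
      · obtain ⟨u1, u2, u3⟩ := G.un e a b c'
        exact ⟨(xy.un e a u1 u3).2, u2.trans (xy.un e a u1 u3).1.symm, xy.un' a u1 u3⟩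
      · have := G.phi
        have q := oky.cnt
        simp only [phi, List.map_cons, List.sum_cons, G.S, List.length_nil, mul_zero] at this ⊢
        rw [show k.b - y.cnt = 0 by omega]; omega
      · have := G.psi
        simp only [psi, List.map_cons, List.sum_cons, List.length_nil, eo, List.length_append,
          List.length_reverse] at this ⊢
        omega
      · have := G.tm
        simp only [eo, List.length_append, List.length_reverse, List.length_cons]
        omega

end Crest.Agent.N325.Ds
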