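import Crest.Agent.N325.Ds.Defs
import Crest.Agent.N325.Bf.Impl0

/-!
# Row 325: the programs of the batch spanner are implementable (helper34)
-/

set_option autoImplicit false

namespace Crest.Agent.N325.Ds

open Bf

instance : Rp Sn := Rp.via fun s => (s.w, s.ix, s.h)
instance : Rp Lv := Rp.via fun s => (s.cnt, s.lm, s.dd, s.sn, s.hl, s.S)
instance : Rp St := Rp.via fun s => (s.al, s.ls, s.bad)

variable {α : Type} [Rp α] {σ : Bool}

@[fun_prop] theorem Sn.pu_w {d : α → Sn} (h : Pu σ d) : Pu σ fun x => (d x).w := by impl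
@[fun_prop] theorem Sn.pu_ix {d : α → Sn} (h : Pu σ d) : Pu σ fun x => (d x).ix := by impl
@[fun_prop] theorem Sn.pu_h {d : α → Sn} (h : Pu σ d) : Pu σ fun x => (d x).h := by impl
@[fun_prop] theorem Lv.pu_cnt {d : α → Lv} (h : Pu σ d) : Pu σ fun x => (d x).cnt := by impl
@[fun_prop] theorem Lv.pu_lm {d : α → Lv} (h : Pu σ d) : Pu σ fun x => (d x).lm := by impl
@[fun_prop] theorem Lv.pu_dd {d : α → Lv} (h : Pu σ d) : Pu σ fun x => (d x).dd := by impl
@[fun_prop] theorem Lv.pu_sn {d : α → Lv} (h : Pu σ d) : Pu σ fun x => (d x).sn := by impl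
@[fun_prop] theorem Lv.pu_hl {d : α → Lv} (h : Pu σ d) : Pu σ fun x => (d x).hl := by impl
@[fun_prop] theorem Lv.pu_S {d : α → Lv} (h : Pu σ d) : Pu σ fun x => (d x).S := by impl
@[fun_prop] theorem St.pu_al {d : α → St} (h : Pu σ d) : Pu σ fun x => (d x).al := by impl
@[fun_prop] theorem St.pu_ls {d : α → St} (h : Pu σ d) : Pu σ fun x => (d x).ls := by impl
@[fun_prop] theorem St.pu_bad {d : α → St} (h : Pu σ d) : Pu σ fun x => (d x).bad := by impl

@[fun_prop] theorem pu_lv0 : Pu σ fun _ : α => lv0 := by unfold lv0; impl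

@[fun_prop] theorem St.pu_cur {d : α → St} (h : Pu σ d) : Pu σ fun x => (d x).cur := by
  unfold St.cur; impl

@[fun_prop] theorem impl_numS {S : α → List ℕ} (h : Pu true S) : Impl fun a => numS (S a) := by
  unfold numS; impl

@[fun_prop] theorem impl_pickE {al h : α → Arr Bool} {C : α → List ℕ} (h1 : Pu true al)
    (h2 : Pu true h) (h3 : Pu true C) : Impl fun a => pickE (al a) (h a) (C a) := by
  unfold pickE; impl

@[fun_prop] theorem pu_pstep {vx nu : α → Arr ℕ} {o : α → ℕ}
    {s : α → Bool × ℕ × List ℕ × List ℕ} (h1 : Pu true vx) (h2 : Pu true nu) (h3 : Pu true o)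
    (h4 : Pu true s) : Pu true fun a => pstep (vx a) (nu a) (o a) (s a) := by
  unfold pstep; impl

@[fun_prop] theorem impl_mkIt {vx nu : α → Arr ℕ} {o : α → ℕ} {w : α → List ℕ}
    {J : α → List It} (h1 : Pu true vx) (h2 : Pu true nu) (h3 : Pu true o) (h4 : Pu true w)
    (h5 : Pu true J) : Impl fun a => mkIt (vx a) (nu a) (o a) (w a) (J a) := by
  unfold mkIt; impl

@[fun_prop] theorem impl_setH {H : α → List ℕ} {h : α → Arr Bool} (h1 : Pu true H)
    (h2 : Pu true h) : Impl fun a => setH (H a) (h a) := by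
  unfold setH; impl

@[fun_prop] theorem pu_push {ix : α → Arr (List ℕ)} {v o : α → ℕ} (h1 : Pu true ix)
    (h2 : Pu true v) (h3 : Pu true o) : Pu true fun a => push (ix a) (v a) (o a) := by
  unfold push; impl

@[fun_prop] theorem impl_setW {vx : α → Arr ℕ} {W : α → List (ℕ × List ℕ)}
    {w ix : α → Arr (List ℕ)} (h1 : Pu true vx) (h2 : Pu true W) (h3 : Pu true w)
    (h4 : Pu true ix) : Impl fun a => setW (vx a) (W a) (w a) (ix a) := by
  unfold setW; impl

variable {bx : α → BI → R BO}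

@[fun_prop] theorem impl_fin {vx nu : α → Arr ℕ} {n P D : α → ℕ} {J : α → List It} {sn : α → Sn}
    (hb : Impl fun p : α × BI => bx p.1 p.2) (h1 : Pu true vx) (h2 : Pu true nu) (h3 : Pu true n)
    (h4 : Pu true P) (h5 : Pu true D) (h6 : Pu true J) (h7 : Pu true sn) :
    Impl fun a => fin (bx a) (vx a) (nu a) (n a) (P a) (D a) (J a) (sn a) := by
  unfold fin; impl

@[fun_prop] theorem impl_recomp {vx : α → Arr ℕ} {al : α → Arr Bool} {P : α → ℕ} {y : α → Lv}
    (hb : Impl fun p : α × BI => bx p.1 p.2) (h1 : Pu true vx) (h2 : Pu true al) (h3 : Pu true P)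
    (h4 : Pu true y) : Impl fun a => recomp (bx a) (vx a) (al a) (P a) (y a) := by
  unfold recomp; impl

/-- one step of the odometer, the recursive call is `k` -/
def goF (bx : BI → R BO) (b : ℕ) (vx : Arr ℕ) (al : Arr Bool)
    (k : List Lv → R (List Lv × List ℕ × List ℕ × List ℕ)) (c : List Lv) :
    R (List Lv × List ℕ × List ℕ × List ℕ) :=
  List.casesOn c (pure ([], [], [], [])) fun x c' => List.casesOn c' (pure ([x], [], [], []))
    fun y l =>
      if y.cnt < b then
        recomp bx vx al x.lm y >>= fun r =>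
          pure (⟨0, x.lm, x.dd, r.1, r.2.1, []⟩ :: ⟨y.cnt + 1, y.lm, y.dd, y.sn, y.hl, y.S⟩ :: l,
            x.hl, r.2.1, r.2.2)
      else
        call k (y :: l) >>= fun r => revAppL x.hl r.2.1 >>= fun out =>
          pure (⟨0, x.lm, x.dd, (r.1.headD x).sn, [], []⟩ :: r.1, out, r.2.2)

theorem go_eq (bx : BI → R BO) (b : ℕ) (vx : Arr ℕ) (al : Arr Bool) (c : List Lv) :
    go bx b vx al c = goF bx b vx al (go bx b vx al) c := by
  rcases c with _ | ⟨x, _ | ⟨y, l⟩⟩ <;> rfl

@[fun_prop] theorem impl_go {b : α → ℕ} {vx : α → Arr ℕ} {al : α → Arr Bool} {c : α → List Lv}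
    (hb : Impl fun p : α × BI => bx p.1 p.2) (h1 : Pu true b) (h2 : Pu true vx) (h3 : Pu true al)
    (h4 : Pu true c) : Impl fun a => go (bx a) (b a) (vx a) (al a) (c a) := by
  have : Impl fun p : α × List Lv => go (bx p.1) (b p.1) (vx p.1) (al p.1) p.2 :=
    Impl.fix (g := fun a => go (bx a) (b a) (vx a) (al a))
      (fun a k c => goF (bx a) (b a) (vx a) (al a) k c) (fun a c => go_eq _ _ _ _ c)
      (by unfold goF; impl)
  exact this.comp (Pu.id.pair h4)

@[fun_prop] theorem impl_upd {b : α → ℕ} {vx : α → Arr ℕ} {T K : α → List ℕ} {s : α → St}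
    (hb : Impl fun p : α × BI => bx p.1 p.2) (h1 : Pu true b) (h2 : Pu true vx) (h3 : Pu true T)
    (h4 : Pu true K) (h5 : Pu true s) : Impl fun a => upd (bx a) (b a) (vx a) (T a) (K a) (s a) := by
  unfold upd; impl

@[fun_prop] theorem impl_wgtR {gt : α → Arr ℤ} {w : α → List ℕ} (h1 : Pu true gt)
    (h2 : Pu true w) : Impl fun a => wgtR (gt a) (w a) := by
  unfold wgtR; impl

@[fun_prop] theorem impl_tst {gt : α → Arr ℤ} {la : α → Arr ℕ} {th : α → ℕ} {al : α → Arr Bool}
    {sn : α → Sn} {e : α → ℕ} (h1 : Pu true gt) (h2 : Pu true la) (h3 : Pu true th)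
    (h4 : Pu true al) (h5 : Pu true sn) (h6 : Pu true e) :
    Impl fun a => tst (gt a) (la a) (th a) (al a) (sn a) (e a) := by
  unfold tst; impl

/-- one step of the scan -/
def scanF (gt : Arr ℤ) (la : Arr ℕ) (th : ℕ) (al : Arr Bool) (sn : Sn)
    (k : List ℕ → R (List ℕ × Option ℕ)) (c : List ℕ) : R (List ℕ × Option ℕ) :=
  List.casesOn c (.ret ([], none)) fun e l => tst gt la th al sn e >>= fun c =>
    if c = true then pure (l, some e) else call k l

theorem scan_eq (gt : Arr ℤ) (la : Arr ℕ) (th : ℕ) (al : Arr Bool) (sn : Sn) (c : List ℕ) :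
    scan gt la th al sn c = call (fun c => List.casesOn c (.ret ([], none)) fun e l =>
      tst gt la th al sn e >>= fun c => if c = true then pure (l, some e)
        else scan gt la th al sn l) c := by
  cases c <;> rfl

@[fun_prop] theorem impl_scan {gt : α → Arr ℤ} {la : α → Arr ℕ} {th : α → ℕ} {al : α → Arr Bool}
    {sn : α → Sn} {c : α → List ℕ} (h1 : Pu true gt) (h2 : Pu true la) (h3 : Pu true th)
    (h4 : Pu true al) (h5 : Pu true sn) (h6 : Pu true c) :
    Impl fun a => scan (gt a) (la a) (th a) (al a) (sn a) (c a) := by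
  let g : α → List ℕ → R (List ℕ × Option ℕ) := fun a c =>
    List.casesOn c (.ret ([], none)) fun e l => tst (gt a) (la a) (th a) (al a) (sn a) e >>=
      fun c => if c = true then pure (l, some e) else scan (gt a) (la a) (th a) (al a) (sn a) l
  have e : ∀ a c, scan (gt a) (la a) (th a) (al a) (sn a) c = call (g a) c := fun a c =>
    scan_eq _ _ _ _ _ c
  have : Impl fun p : α × List ℕ => g p.1 p.2 :=
    Impl.fix (fun a k c => scanF (gt a) (la a) (th a) (al a) (sn a) k c)
      (fun a c => by simp only [g, scanF, ← e]) (by unfold scanF; impl)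
  exact (Impl.call_known (this.comp (Pu.id.pair h6))).of_eq fun a => (e a _).symm

@[fun_prop] theorem impl_probe {gt : α → Arr ℤ} {la : α → Arr ℕ} {th : α → ℕ} {s : α → St}
    (h1 : Pu true gt) (h2 : Pu true la) (h3 : Pu true th) (h4 : Pu true s) :
    Impl fun a => probe (gt a) (la a) (th a) (s a) := by
  unfold probe; impl

@[fun_prop] theorem impl_build {vx : α → Arr ℕ} {I V : α → List ℕ} {P D0 D1 : α → ℕ}
    {pr : α → List (ℕ × ℕ)} (hb : Impl fun p : α × BI => bx p.1 p.2) (h1 : Pu true vx)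
    (h2 : Pu true I) (h3 : Pu true V) (h4 : Pu true P) (h5 : Pu true D0) (h6 : Pu true D1)
    (h7 : Pu true pr) :
    Impl fun a => build (bx a) (vx a) (I a) (V a) (P a) (D0 a) (D1 a) (pr a) := by
  unfold build; impl

end Crest.Agent.N325.Ds
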