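import Crest.Agent.N325.Ds.Defs

/-!
# Row 325 (helper13): the batch spanner — the test of the candidates and the covering estimate
-/

set_option autoImplicit false

namespace Crest.Agent.N325.Ds

open Bf

variable {g : Gl} {cls : ℕ → ℕ} {k : Cs} {Nx : ℕ → ℕ → Prop} {Gam : ℕ → ℕ}
  {gt : ℕ → ℤ} {la : ℕ → ℕ} {th L n : ℕ} {vx : ℕ → ℕ} {s : St}

theorem wgt_cons (gt : ℕ → ℤ) (o : ℕ) (w : List ℕ) : wgt gt (o :: w) = sgt gt o + wgt gt w := by
  simp [wgt]

theorem natAbs_sgt (gt : ℕ → ℤ) (o : ℕ) : (sgt gt o).natAbs = (gt (o / 2)).natAbs := by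
  unfold sgt; split_ifs <;> simp

theorem sp_wgtR (gt : Arr ℤ) {w : List ℕ} {G : ℕ} (hG : ∀ o ∈ w, (gt.get (o / 2)).natAbs ≤ G)
    (hX : w.length * G ≤ g.X) :
    Sp g (wgtR gt w) fun z t => z = wgt gt.get w ∧ t ≤ w.length + 1 := by
  refine (sp_foldL' (fun l (z : ℤ) => (∀ o ∈ l, o ∈ w) ∧ z + wgt gt.get l = wgt gt.get w ∧
      z.natAbs + l.length * G ≤ w.length * G) (fun _ => 0) (fun o l z ⟨a, b, c⟩ => ?_)
    ⟨fun _ m => m, by simp, by simp⟩).mono fun z t ⟨⟨_, b, _⟩, c⟩ =>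
      ⟨by simpa [wgt] using b, by simpa using c⟩
  have h1 := hG o (a o List.mem_cons_self)
  have h2 := Int.natAbs_add_le z (sgt gt.get o)
  rw [natAbs_sgt] at h2
  rw [List.length_cons, add_mul] at c
  exact sp_int.2 ⟨by omega, ⟨fun o' m => a o' (List.mem_cons_of_mem _ m),
    by rw [← b, wgt_cons]; ring, by omega⟩, le_rfl⟩

theorem Inv.cur_mem (hI : Inv k Nx Gam cls gt la th L vx s n) : s.cur ∈ s.ls := by
  have := hI.len
  unfold St.cur
  cases h : s.ls with
  | nil => rw [h] at this; simp at this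
  | cons x l => simp

/-- the walk of a living unpublished item is an intact walk through published items -/
theorem Inv.walk (hI : Inv k Nx Gam cls gt la th L vx s n) {e : ℕ} (he : s.al.get e = true)
    (hp : s.cur.sn.h.get e = false) :
    Wk vx (vx (2 * e)) (s.cur.sn.w.get e) (vx (2 * e + 1)) ∧ (s.cur.sn.w.get e).length ≤ k.LM ∧
      ∀ o ∈ s.cur.sn.w.get e, s.pub (o / 2) ∧ cls o = cls (2 * e) := by
  have h := hI.ok _ hI.cur_mem
  obtain ⟨vx0, hc, -, hw⟩ := h.sn
  rw [hI.cur] at hc hw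
  have e0 : vx = vx0 := funext fun o => by
    by_contra hne
    exact absurd (hc.2 o hne).1 List.not_mem_nil
  subst e0
  have W := hw e he hp
  refine ⟨W.wk, W.len.trans h.lm, fun o m => ⟨⟨?_, (W.pub o m).1⟩, (W.pub o m).2.1⟩⟩
  by_contra ha
  exact absurd ((W.pub o m).2.2 (by simpa using ha)).1 List.not_mem_nil

theorem chain_h {al : ℕ → Bool} {x : Lv} {l : List Lv}
    (h : (x :: l).IsChain (Lk Nx Gam vx al)) {e : ℕ} :
    ∀ y ∈ x :: l, y.sn.h.get e = true → x.sn.h.get e = true := by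
  induction l generalizing x with
  | nil => intro y m a; rw [List.mem_singleton.1 m] at a; exact a
  | cons z l ih =>
    intro y m a
    rcases List.mem_cons.1 m with rfl | m
    · exact a
    · rw [List.isChain_cons_cons] at h
      exact (h.1.h e).2 (Or.inl (ih h.2 y m a))

theorem Inv.h_mono (hI : Inv k Nx Gam cls gt la th L vx s n) {e : ℕ} {y : Lv} (hy : y ∈ s.ls)
    (a : y.sn.h.get e = true) : s.cur.sn.h.get e = true := by
  have h := hI.lk
  unfold St.cur
  cases e' : s.ls with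
  | nil => rw [e'] at hy; cases hy
  | cons x l => rw [e'] at h hy; exact chain_h h y hy a

/-- an unpublished item leaves the structure -/
theorem Inv.kill (hI : Inv k Nx Gam cls gt la th L vx s n) {e : ℕ}
    (hp : s.cur.sn.h.get e = false) {bad : List ℕ}
    (hb : ∀ f, f ≠ e → s.al.get f = true → s.cur.sn.h.get f = false → f ∉ bad →
      Cov gt la th (s.cur.sn.w.get f) f) :
    Inv k Nx Gam cls gt la th L vx ⟨s.al.set e false, s.ls, bad⟩ n := by
  have sub : ∀ f, (s.al.set e false).get f = true → f ≠ e ∧ s.al.get f = true := fun f h => by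
    rw [Arr.get_set] at h
    split_ifs at h with c
    exact ⟨c, h⟩
  refine ⟨hI.len, fun y m => ?_, hI.lk.imp fun x y h => ?_, hI.cur, hI.val,
    fun f a b c => hb f (sub f a).1 (sub f a).2 b c⟩
  · have h := hI.ok y m
    obtain ⟨vx0, hc, hd, hw⟩ := h.sn
    refine ⟨⟨vx0, hc, hd, fun f a b => ?_⟩, h.lm, h.dd, h.cnt, h.lt⟩
    have W := hw f (sub f a).2 b
    refine ⟨W.wk, W.len, fun o mo => ⟨(W.pub o mo).1, (W.pub o mo).2.1, fun c => ?_⟩, W.ix⟩
    have ne : o / 2 ≠ e := fun q => by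
      have := hI.h_mono m (W.pub o mo).1
      rw [q, hp] at this
      cases this
    exact (W.pub o mo).2.2 (by rw [← Arr.get_set_ne s.al ne false]; exact c)
  · exact ⟨h.sub, h.h, h.dj, h.nd, fun f a => h.un f (sub f a).2, h.nx, h.le, h.dd⟩

theorem sp_scan {gt : Arr ℤ} {la : Arr ℕ} {G : ℕ}
    (hI : Inv k Nx Gam cls gt.get la.get th L vx s n)
    (hG : ∀ e, s.al.get e = true → (gt.get e).natAbs ≤ G) (hX : k.LM * G ≤ g.X) (l : List ℕ) :
    Sp g (scan gt la th s.al s.cur.sn l) fun r t =>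
      t + (k.LM + 4) * r.1.length ≤ (k.LM + 4) * l.length + 1 ∧ (r.2 = none → r.1 = []) ∧
      (∀ f ∈ l, f ∉ r.1 → r.2 ≠ some f → s.al.get f = true → s.cur.sn.h.get f = false →
        Cov gt.get la.get th (s.cur.sn.w.get f) f) ∧
      ∀ e, r.2 = some e → s.al.get e = true ∧ s.cur.sn.h.get e = false ∧
        ¬Cov gt.get la.get th (s.cur.sn.w.get e) e := by
  induction l with
  | nil => exact ⟨Nat.zero_le _, by simp, fun _ => rfl, fun _ m => (nomatch m), fun _ h => (nomatch h)⟩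
  | cons e l ih =>
    have T : Sp g (tst gt la th s.al s.cur.sn e) fun c t => t ≤ k.LM + 1 ∧
        (c = true ↔ s.al.get e = true ∧ s.cur.sn.h.get e = false ∧
          ¬Cov gt.get la.get th (s.cur.sn.w.get e) e) := by
      refine sp_ite.2 ⟨fun h => ?_, fun h => ⟨Nat.zero_le _, by simpa using fun a b => absurd ⟨a, b⟩ h⟩⟩
      obtain ⟨-, a, b⟩ := hI.walk h.1 h.2
      refine (sp_wgtR gt (fun o m => hG _ (b o m).1.1)
        ((Nat.mul_le_mul_right _ a).trans hX)).bind fun z t ⟨c, d⟩ => ⟨by omega, ?_⟩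
      simp [Cov, c, h.1, h.2]
    refine ⟨Nat.zero_le _, T.bind fun c t ⟨a, b⟩ => sp_ite.2 ⟨fun h => ⟨?_, fun q => (nomatch q),
      fun f m m' q => ?_, fun f q => ?_⟩, fun h => ih.mono fun r u ⟨c1, c2, c3, c4⟩ =>
        ⟨?_, c2, fun f m m' q a1 a2 => ?_, c4⟩⟩⟩
    · simp only [List.length_cons, mul_add]; omega
    · rcases List.mem_cons.1 m with rfl | m
      · exact absurd rfl q
      · exact absurd m m'
    · cases q; exact b.1 h
    · simp only [List.length_cons, mul_add]; omega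
    · rcases List.mem_cons.1 m with rfl | m
      · by_contra hc
        exact h (b.2 ⟨a1, a2, hc⟩)
      · exact c3 f m m' q a1 a2

theorem sp_probe {gt : Arr ℤ} {la : Arr ℕ} {G : ℕ}
    (hI : Inv k Nx Gam cls gt.get la.get th L vx s n)
    (hG : ∀ e, s.al.get e = true → (gt.get e).natAbs ≤ G) (hX : k.LM * G ≤ g.X) :
    Sp g (probe gt la th s) fun r t =>
      Inv k Nx Gam cls gt.get la.get th L vx r.1 n ∧ (∀ e, r.1.pub e ↔ s.pub e) ∧
      k.rc r.1 = k.rc s ∧ t + k.Phi r.1 ≤ k.Phi s + 1 ∧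
      (r.2 = none → r.1.al = s.al ∧ r.1.bad = []) ∧
      ∀ e, r.2 = some e → r.1.al = s.al.set e false ∧ s.al.get e = true ∧ ¬s.pub e ∧
        ¬Cov gt.get la.get th (s.cur.sn.w.get e) e := by
  refine (sp_scan hI hG hX s.bad).bind fun x t ⟨c1, c2, c3, c4⟩ => ?_
  have hc : ∀ f, x.2 ≠ some f → s.al.get f = true → s.cur.sn.h.get f = false → f ∉ x.1 →
      Cov gt.get la.get th (s.cur.sn.w.get f) f := fun f q a b c => by
    by_cases m : f ∈ s.bad
    · exact c3 f m c q a b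
    · exact hI.cov f a b m
  have hP : ∀ al, t + 0 + k.Phi ⟨al, s.ls, x.1⟩ ≤ k.Phi s + 1 := fun al => by
    simp only [Cs.Phi]; omega
  obtain ⟨l, _ | e⟩ := x
  · exact ⟨⟨hI.len, hI.ok, hI.lk, hI.cur, hI.val, fun f => hc f (by simp)⟩, fun _ => Iff.rfl, rfl,
      hP _, fun _ => ⟨rfl, c2 rfl⟩, fun _ q => (nomatch q)⟩
  · obtain ⟨a, b, c⟩ := c4 e rfl
    refine ⟨hI.kill b fun f ne => hc f (by simpa using ne.symm), fun f => ?_, rfl, hP _,
      fun q => (nomatch q), fun f q => ?_⟩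
    · show (s.al.set e false).get f = true ∧ s.cur.sn.h.get f = true ↔ s.pub f
      rw [Arr.get_set]
      split_ifs with h
      · subst h; simp [St.pub, b]
      · rfl
    · cases q
      exact ⟨rfl, a, fun h => by simp [St.pub, b] at h, c⟩

theorem wk_tel {Z : ℕ → ℝ} {B : ℝ} {w : List ℕ} {u v : ℕ} (hw : Wk vx u w v)
    (h : ∀ o ∈ w, |(gt (o / 2) : ℝ) - (Z (vx (2 * (o / 2) + 1)) - Z (vx (2 * (o / 2))))| ≤ B) :
    |(wgt gt w : ℝ) - (Z v - Z u)| ≤ w.length * B := by
  induction w generalizing u with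
  | nil => rw [wk_nil.1 hw]; simp [wgt]
  | cons o w ih =>
    have h1 := ih hw.2 fun o' m => h o' (List.mem_cons_of_mem _ m)
    have h2 : |(sgt gt o : ℝ) - (Z (vx (rv o)) - Z (vx o))| ≤ B := by
      have := h o List.mem_cons_self
      unfold sgt rv
      split_ifs with c
      · rwa [show 2 * (o / 2) = o by omega] at this
      · rw [show 2 * (o / 2) + 1 = o by omega, show 2 * (o / 2) = o - 1 by omega] at this
        rw [← abs_neg]
        push_cast
        convert this using 2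
        ring
    rw [wgt_cons, ← hw.1]
    push_cast [List.length_cons]
    calc _ = |((sgt gt o : ℝ) - (Z (vx (rv o)) - Z (vx o))) +
          ((wgt gt w : ℝ) - (Z v - Z (vx (rv o))))| := by congr 1; ring
      _ ≤ _ := (abs_add_le _ _).trans (by linarith)

theorem Inv.close (hI : Inv k Nx Gam cls gt la th L vx s n) (hcls : ∀ o, cls (rv o) = cls o)
    (hla : ∀ e f, s.al.get e = true → s.al.get f = true → cls (2 * f) = cls (2 * e) →
      la f ≤ 2 * la e) {Z : ℕ → ℝ} {a : ℝ} (ha : 0 ≤ a)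
    (hZ : ∀ f, s.pub f → |(gt f : ℝ) - (Z (vx (2 * f + 1)) - Z (vx (2 * f)))| ≤ a * la f) {e : ℕ}
    (he : s.al.get e = true) (hp : ¬s.pub e) :
    (e ∉ s.bad → |(gt e : ℝ) - (Z (vx (2 * e + 1)) - Z (vx (2 * e)))| ≤
      (th + 2 * a * k.LM) * la e) ∧
    (¬Cov gt la th (s.cur.sn.w.get e) e →
      (th - 2 * a * k.LM) * la e < |(gt e : ℝ) - (Z (vx (2 * e + 1)) - Z (vx (2 * e)))|) := by
  have hp' : s.cur.sn.h.get e = false := by simpa [St.pub, he] using hp
  obtain ⟨w1, w2, w3⟩ := hI.walk he hp'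
  have hB : 0 ≤ a * (2 * la e) := by positivity
  have h1 := wk_tel (gt := gt) (Z := Z) (B := a * (2 * la e)) w1 fun o m => by
    refine (hZ _ (w3 o m).1).trans (mul_le_mul_of_nonneg_left ?_ ha)
    have c : cls (2 * (o / 2)) = cls o := by
      rcases eq_or_rv (show 2 * (o / 2) / 2 = o / 2 by omega) with q | q
      · rw [q]
      · rw [q, hcls]
    exact_mod_cast hla e (o / 2) he (w3 o m).1.1 (c.trans (w3 o m).2)
  have h2 : ((s.cur.sn.w.get e).length : ℝ) * (a * (2 * la e)) ≤ k.LM * (a * (2 * la e)) :=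
    mul_le_mul_of_nonneg_right (by exact_mod_cast w2) hB
  have h3 : (((gt e - wgt gt (s.cur.sn.w.get e)).natAbs : ℕ) : ℝ) =
      |(gt e : ℝ) - wgt gt (s.cur.sn.w.get e)| := by
    rw [Nat.cast_natAbs]; push_cast; rfl
  have h4 := abs_le.1 (h1.trans h2)
  refine ⟨fun m => ?_, fun c => ?_⟩
  · have c : (((gt e - wgt gt (s.cur.sn.w.get e)).natAbs : ℕ) : ℝ) ≤ (th * la e : ℕ) :=
      Nat.cast_le.2 (hI.cov e he hp' m)
    rw [h3] at c
    push_cast at c
    have := abs_le.1 c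
    exact abs_le.2 ⟨by linarith, by linarith⟩
  · have c : ((th * la e : ℕ) : ℝ) < ((gt e - wgt gt (s.cur.sn.w.get e)).natAbs : ℕ) :=
      Nat.cast_lt.2 (not_le.1 c)
    rw [h3] at c
    push_cast at c
    rcases lt_abs.1 c with c | c
    · exact lt_abs.2 (Or.inl (by linarith))
    · exact lt_abs.2 (Or.inr (by linarith))

end Crest.Agent.N325.Ds
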