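import Crest.Agent.N325.Ds.Pre
import Crest.Agent.N325.Ds.Fin
import Crest.Agent.N325.Ds.Go

/-!
# Row 325 (helper31): the batch spanner — recomputation from a level
-/

set_option autoImplicit false

namespace Crest.Agent.N325.Ds

open Bf

theorem cnt_congr {vx vo : ℕ → ℕ} {v : ℕ} {l : List ℕ}
    (e : ∀ o ∈ l, vx o = vo o ∧ vx (rv o) = vo (rv o)) : cnt vx v l = cnt vo v l := by
  induction l with
  | nil => rfl
  | cons o l ih =>
    have := e o List.mem_cons_self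
    rw [cnt_cons, cnt_cons, this.1, this.2, ih fun o' k => e o' (List.mem_cons_of_mem _ k)]

theorem sum_count_le {l : List ℕ} (n : l.Nodup) (m : List ℕ) :
    (l.map fun o => m.count o).sum ≤ m.length := by
  induction m with
  | nil => simp
  | cons a m ih =>
    have e : (l.map fun o => (a :: m).count o).sum = (l.map fun o => m.count o).sum + l.count a := by
      clear ih n
      induction l with
      | nil => simp
      | cons b l ih =>
        simp only [List.map_cons, List.sum_cons, List.count_cons, beq_iff_eq] at ih ⊢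
        have : (if a = b then 1 else 0) = (if b = a then 1 else 0 : ℕ) := by simp only [eq_comm]
        omega
    have := List.nodup_iff_count_le_one.1 n a
    rw [e, List.length_cons]
    omega

theorem length_le_of_lt {l : List ℕ} (n : l.Nodup) {N : ℕ} (h : ∀ v ∈ l, v < N) : l.length ≤ N := by
  simpa using (List.subperm_of_subset n fun v m => List.mem_range.2 (h v m)).length_le

variable {g : Gl} {bx : BI → R BO} {cls : ℕ → ℕ} {k : Cs} {Nx : ℕ → ℕ → Prop} {Gam : ℕ → ℕ}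

/-- an untouched walk survives -/
theorem WOk.un {vx vx0 : ℕ → ℕ} {al : ℕ → Bool} {sn sn' : Sn} {lm P e : ℕ} {S : List ℕ}
    (h : WOk cls vx0 al sn lm S e) (hc : Chg vx vx0 S) (u : Un vx sn S e) (hle : lm ≤ P)
    (hw : sn'.w.get e = sn.w.get e) (hh : ∀ e, sn.h.get e = true → sn'.h.get e = true)
    (hi : ∀ v o, (sn.ix.get v).count o ≤ (sn'.ix.get v).count o) : WOk cls vx al sn' P [] e := by
  have q : ∀ o ∈ 2 * e :: sn.w.get e, vx o = vx0 o ∧ vx (rv o) = vx0 (rv o) := fun o m =>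
    ⟨hc.eq (u o m).1, hc.eq (u o m).2⟩
  have q0 := q _ List.mem_cons_self
  rw [rv_two] at q0
  refine ⟨?_, hw ▸ h.len.trans hle, fun o m => ?_, fun v => ?_⟩
  · rw [hw, q0.1, q0.2]
    exact h.wk.congr fun o m => q o (List.mem_cons_of_mem _ m)
  · rw [hw] at m
    obtain ⟨a, b, c⟩ := h.pub o m
    have m' := List.mem_cons_of_mem (2 * e) m
    exact ⟨hh _ a, b, fun d => absurd ((q o m').1 ▸ (c d).1) (u o m').1⟩
  · rw [hw, cnt_congr q]
    exact (h.ix v).trans (hi v _)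

/-- the projections of the picked items -/
theorem sp_projAll (hcls : ∀ o, cls (rv o) = cls o) {vx nu : Arr ℕ} {vx0 : ℕ → ℕ} {al : ℕ → Bool}
    {sn : Sn} {lm : ℕ} {S E : List ℕ} (hnu : ∀ v, nu.get v ≠ 0 ↔ v ∈ S) (hc : Chg vx.get vx0 S)
    (hE : ∀ o ∈ E, o % 2 = 0 ∧ WOk cls vx0 al sn lm S (o / 2)) (nE : E.Nodup) :
    Sp g (foldL (fun o J => mkIt vx nu o (sn.w.get (o / 2)) J) E []) fun J t =>
      (J.map Prod.fst).Nodup ∧
      (∀ o, o ∈ J.map Prod.fst ↔ o ∈ E ∧ ¬Un vx.get sn S (o / 2)) ∧ J.length ≤ E.length ∧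
      (∀ i ∈ J, ItOk vx.get cls (· ∈ S)
        (fun c o => sn.h.get (o / 2) = true ∧ al (o / 2) = true ∧ cls o = c) lm i ∧
        ∀ v, cnt vx.get v (i.2.2.2.1 ++ i.1 :: i.2.2.2.2) ≤
          cnt vx.get v (i.1 :: sn.w.get (i.1 / 2))) ∧
      t ≤ E.length * (3 * lm + 4) + 1 := by
  refine (sp_foldL' (fun l (J : List It) => ∃ l0, l0 ++ l = E ∧ (J.map Prod.fst).Nodup ∧
      (∀ o, o ∈ J.map Prod.fst ↔ o ∈ l0 ∧ ¬Un vx.get sn S (o / 2)) ∧ J.length ≤ l0.length ∧
      ∀ i ∈ J, ItOk vx.get cls (· ∈ S)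
        (fun c o => sn.h.get (o / 2) = true ∧ al (o / 2) = true ∧ cls o = c) lm i ∧
        ∀ v, cnt vx.get v (i.2.2.2.1 ++ i.1 :: i.2.2.2.2) ≤
          cnt vx.get v (i.1 :: sn.w.get (i.1 / 2))) (fun _ => 3 * lm + 3)
    (fun o l J ⟨l0, e, a1, a2, a3, a4⟩ => ?st) (l := E) (s := [])
    ⟨[], rfl, by simp, by simp, by simp, by simp⟩).mono ?fi
  case fi =>
    rintro J t ⟨⟨l0, e, a⟩, b⟩
    rw [List.append_nil] at e
    subst e
    exact ⟨a.1, a.2.1, a.2.2.1, a.2.2.2, by simpa using b⟩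
  case st =>
    obtain ⟨ev, W⟩ := hE o (by simp [← e])
    have q : 2 * (o / 2) = o := by omega
    have wk := W.wk
    rw [← rv_two, q] at wk
    have un : Un vx.get sn S (o / 2) ↔
        ∀ o' ∈ o :: sn.w.get (o / 2), vx.get o' ∉ S ∧ vx.get (rv o') ∉ S := by rw [Un, q]
    have no : o ∉ l0 := fun m => by
      rw [← e] at nE
      exact List.disjoint_of_nodup_append nE m List.mem_cons_self
    refine (sp_mkIt J hnu hc wk).mono fun r t ⟨T, c⟩ => ⟨⟨l0 ++ [o], by simp [← e], ?_⟩, by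
      have := W.len; omega⟩
    rw [← un] at c
    rcases c with ⟨rfl, c⟩ | ⟨c, A, B, ra, ub, rfl, b1, b2, b3, b4, b5, b6, b7⟩
    · refine ⟨a1, fun x => ?_, by simp only [List.length_append]; omega, a4⟩
      rw [a2, List.mem_append, List.mem_singleton]
      constructor
      · exact fun h => ⟨Or.inl h.1, h.2⟩
      · rintro ⟨h | rfl, h'⟩
        exacts [⟨h, h'⟩, absurd c h']
    · refine ⟨List.nodup_cons.2 ⟨fun m => no ((a2 o).1 m).1, a1⟩, fun x => ?_, by
        simp only [List.length_append, List.length_cons]; omega, fun i m => ?_⟩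
      · rw [List.map_cons, List.mem_cons, a2, List.mem_append, List.mem_singleton]
        constructor
        · rintro (rfl | h)
          exacts [⟨Or.inr rfl, c⟩, ⟨Or.inl h.1, h.2⟩]
        · rintro ⟨h | h, h'⟩
          exacts [Or.inr ⟨h, h'⟩, Or.inl h]
      · rcases List.mem_cons.1 m with rfl | m
        · refine ⟨⟨b1, b2, b3, b4, b5.trans W.len, fun o' m' => ?_⟩, b6⟩
          obtain ⟨p1, p2, p3⟩ := W.pub _ (b7 o' m').1
          rw [rv_div] at p1 p3
          rw [hcls, q] at p2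
          rw [rv_rv] at p3
          refine ⟨p1, ?_, p2⟩
          by_contra d
          exact (b7 o' m').2 (p3 (Bool.eq_false_iff.2 d)).symm
        · exact a4 i m

theorem sp_recomp (hb : BoxSpec g bx cls k Nx Gam) (hcls : ∀ o, cls (rv o) = cls o)
    {vx : Arr ℕ} {al : Arr Bool} {P : ℕ} {y : Lv} (hy : LvOk k cls vx.get al.get y)
    (hP : P ≤ k.LM) (hN : Nx y.lm P) (hle : y.lm ≤ P) :
    Sp g (recomp bx vx al P y) fun r t =>
      SnOk cls vx.get al.get r.1 P (y.dd + y.dd * Gam P) [] ∧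
      (∀ e, r.1.h.get e = true ↔ y.sn.h.get e = true ∨ e ∈ r.2.1) ∧
      (∀ e ∈ r.2.1, y.sn.h.get e = false ∧ al.get e = true ∧ e ∈ r.2.2) ∧ r.2.1.Nodup ∧
      r.2.1.length ≤ k.cH * (y.S.length + 1) ∧ r.2.2.length ≤ k.DD * y.S.length ∧
      (∀ e, al.get e = true → y.sn.h.get e = false → (e ∉ r.2.2 ↔ Un vx.get y.sn y.S e)) ∧
      (∀ e, e ∉ r.2.2 → r.1.w.get e = y.sn.w.get e) ∧ t ≤ k.Cr * (y.S.length + 1) := by
  obtain ⟨vx0, hc, hd, hw⟩ := hy.sn
  refine (sp_numS y.S).bind fun a t1 ⟨a1, a2, a3, a4, a5, a6, a7, T1⟩ =>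
    (sp_flatMapP _ _).bind fun C t2 ⟨eC, T2⟩ => (sp_pickE al y.sn.h C).bind
      fun E t3 ⟨E1, E2, E3, T3⟩ => ?_
  have lC : C.length ≤ a.2.1 * y.dd := by
    rw [eC, List.length_flatMap, ← a6]
    simpa using List.sum_le_card_nsmul (a.2.2.map fun v => (y.sn.ix.get v).length) y.dd
      fun x m => by obtain ⟨v, -, rfl⟩ := List.mem_map.1 m; exact hd v
  refine (sp_projAll hcls a1 hc (fun o m => ⟨((E2 o).1 m).2.1,
    hw _ ((E2 o).1 m).2.2.1 ((E2 o).1 m).2.2.2⟩) E1).bind fun J t4 ⟨J1, J2, J3, J4, T4⟩ => ?_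
  have JE : ∀ i ∈ J, i.1 % 2 = 0 ∧ al.get (i.1 / 2) = true ∧ y.sn.h.get (i.1 / 2) = false :=
    fun i m => ((E2 _).1 ((J2 _).1 (List.mem_map_of_mem m)).1).2
  have nV : a.2.1 ≤ k.nV := a6 ▸ length_le_of_lt a4 fun v m => hy.lt v ((a5 v).1 m)
  have lJ : J.length ≤ a.2.1 * y.dd := J3.trans (E3.trans lC)
  have occ : ∀ v, (J.map fun i => cnt vx.get v (i.2.2.2.1 ++ i.1 :: i.2.2.2.2)).sum ≤ y.dd := by
    intro v
    obtain ⟨v0, h0⟩ := hc.cnt_le v
    refine le_trans ?_ ((sum_count_le J1 (y.sn.ix.get v0)).trans (hd v0))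
    rw [List.map_map]
    refine List.sum_le_sum fun i m => ((J4 i m).2 v).trans ((h0 _).trans ?_)
    have := (hw _ (JE i m).2.1 (JE i m).2.2).ix v0
    rwa [show 2 * (i.1 / 2) = i.1 by have := (JE i m).1; omega] at this
  refine (sp_fin hb hcls (S := (· ∈ y.S)) (Nat.succ_pos _) (Nat.succ_le_succ nV) hP hy.dd hN
    (fun v _ => Nat.lt_succ_of_le (a2 v)) (fun u v hu hv => a3 u hu v hv) (fun i m => (J4 i m).1)
    JE J1 occ (lJ.trans (Nat.mul_le_mul_right _ (Nat.le_succ _)))).mono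
    fun r t ⟨r1, r2, r3, r4, r5, r6, r7, r8, r9, r10, T5⟩ => ?_
  have un : ∀ e, al.get e = true → y.sn.h.get e = false →
      (e ∉ r.2.2 ↔ Un vx.get y.sn y.S e) := fun e ha hh => by
    rw [r5, J2, show 2 * e / 2 = e by omega]
    refine ⟨fun c => ?_, fun c d => d.2 c⟩
    by_contra u
    refine c ⟨(E2 _).2 ⟨?_, by omega, by rwa [show 2 * e / 2 = e by omega],
      by rwa [show 2 * e / 2 = e by omega]⟩, u⟩
    have : ∃ v ∈ y.S, 0 < cnt vx0 v (2 * e :: y.sn.w.get e) := by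
      by_contra d
      push Not at d
      exact u fun o m => ⟨fun s => absurd (cnt_pos m (Or.inl rfl)) (d _ ((hc.mem _).1 s)).not_gt,
        fun s => absurd (cnt_pos m (Or.inr rfl)) (d _ ((hc.mem _).1 s)).not_gt⟩
    obtain ⟨v, s, p⟩ := this
    rw [eC, List.mem_flatMap]
    exact ⟨v, (a5 v).2 s, List.count_pos_iff.1 (p.trans_le ((hw e ha hh).ix v))⟩
  have mS : a.2.1 * y.dd ≤ k.DD * y.S.length := by
    rw [mul_comm]; exact Nat.mul_le_mul hy.dd a7
  refine ⟨⟨vx.get, ⟨fun _ _ h => h, fun o h => absurd rfl h⟩,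
    fun v => (r10 v).trans (Nat.add_le_add_right (hd v) _), fun e ha hh => ?_⟩, r1,
    fun e m => ?_, r2, r4.trans (Nat.mul_le_mul_left _ (by omega)), r6 ▸ lJ.trans mS, un, r8, ?_⟩
  · by_cases m : e ∈ r.2.2
    · exact r7 e m
    · have h0 : y.sn.h.get e = false := by
        rw [Bool.eq_false_iff] at hh ⊢
        exact fun c => hh ((r1 e).2 (Or.inl c))
      exact (hw e ha h0).un hc ((un e ha h0).1 m) hle (r8 e m)
        (fun e c => (r1 e).2 (Or.inl c)) r9
  · obtain ⟨i, b, c⟩ := List.mem_map.1 ((r5 e).1 (r3 e m))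
    have := JE i b
    rw [c, show 2 * e / 2 = e by omega] at this
    exact ⟨this.2.2, this.2.1, r3 e m⟩
  · rw [← eC, a6] at T2
    have lm := hy.lm
    generalize y.S.length = s at *
    generalize hM : k.DD * s = M at *
    have b1 : E.2.length * (3 * y.lm + 4) ≤ M * (3 * k.LM + 4) :=
      Nat.mul_le_mul (by omega) (by omega)
    have b2 : (k.Cb + k.LM + 8) * (J.length + 1) ≤ (k.Cb + k.LM + 8) * (M + 1) :=
      Nat.mul_le_mul_left _ (by omega)
    have b3 : k.cH * (a.2.1 + 1) ≤ k.cH * (s + 1) := Nat.mul_le_mul_left _ (by omega)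
    have b4 : (M + s + 1) * (k.Cb + 6 * k.LM + 30) + k.cH * (s + 1) ≤ k.Cr * (s + 1) := by
      rw [Cs.Cr, ← hM]
      nlinarith [Nat.zero_le (k.DD * (k.Cb + 6 * k.LM + 30))]
    nlinarith [Nat.zero_le (M * k.LM), Nat.zero_le (s * k.Cb), Nat.zero_le (s * k.LM)]

theorem recSpec (hb : BoxSpec g bx cls k Nx Gam) (hcls : ∀ o, cls (rv o) = cls o) :
    RecSpec g bx cls k Nx Gam := fun hy hP hN hle => sp_recomp hb hcls hy hP hN hle

end Crest.Agent.N325.Ds
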