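import Crest.Agent.N325.Ds.Upd
import Crest.Agent.N325.Ds.Rec
import Crest.Agent.N325.Ds.Probe
import Crest.Agent.N325.Ds.Build
import Crest.Agent.N325.Ds.Impl

/-!
# Row 325 (helper35): the batch spanner, the update with the box plugged in
-/

set_option autoImplicit false

namespace Crest.Agent.N325.Ds

open Bf

variable {g : Gl} {bx : BI → R BO} {cls : ℕ → ℕ} {k : Cs} {Nx : ℕ → ℕ → Prop} {Gam : ℕ → ℕ}
  {gt : ℕ → ℤ} {la : ℕ → ℕ} {th L n : ℕ} {vx : ℕ → ℕ} {s : St}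

theorem sp_upd (hb : BoxSpec g bx cls k Nx Gam) (hcls : ∀ o, cls (rv o) = cls o)
    {vx' : Arr ℕ} {T K : List ℕ} (hI : Inv k Nx Gam cls gt la th L vx s n)
    (hc : Chg vx'.get vx T) (hT : ∀ v ∈ T, v < k.nV)
    (hK : ∀ e ∈ K, vx'.get (2 * e) < k.nV ∧ vx'.get (2 * e + 1) < k.nV)
    (hn : n + 1 < (k.b + 1) ^ L) :
    Sp g (upd bx k.b vx' T K s) fun r t =>
      Inv k Nx Gam cls gt la th L vx'.get r.1 (n + 1) ∧
      (∀ e, r.1.al.get e = true ↔ s.al.get e = true ∧ e ∉ K) ∧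
      r.2.1.Nodup ∧ (∀ e ∈ r.2.1, s.pub e) ∧ r.2.2.Nodup ∧
      (∀ e ∈ r.2.2, ¬(s.pub e ∧ e ∉ r.2.1)) ∧
      (∀ e, r.1.pub e ↔ (s.pub e ∧ e ∉ r.2.1) ∨ e ∈ r.2.2) ∧
      r.2.1.length + r.2.2.length + k.rc r.1 ≤ k.rc s + k.RU L (T.length + 2 * K.length) ∧
      t + k.Phi r.1 ≤ k.Phi s + k.TU L (T.length + 2 * K.length) :=
  sp_upd' (fun a b c d => sp_recomp hb hcls a b c d) hI hc hT hK hn

end Crest.Agent.N325.Ds
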