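import Crest.Agent.N325.Ds.Go

/-!
# Row 325 (helper35): the update of the batch spanner
-/

set_option autoImplicit false

namespace Crest.Agent.N325.Ds

open Bf

variable {g : Gl} {bx : BI → R BO} {cls : ℕ → ℕ} {k : Cs} {Nx : ℕ → ℕ → Prop} {Gam : ℕ → ℕ}
  {gt : ℕ → ℤ} {la : ℕ → ℕ} {th L n : ℕ} {vx : ℕ → ℕ} {s : St}

/-- one step of the killing loop -/
def kill (h : ℕ → Bool) (e : ℕ) (a : Arr Bool × List ℕ) : Arr Bool × List ℕ :=
  if a.1.get e = true then (a.1.set e false, if h e = true then e :: a.2 else a.2) else a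

theorem foldl_kill (h : ℕ → Bool) (K : List ℕ) (a : Arr Bool × List ℕ) (nd : a.2.Nodup)
    (dj : ∀ e ∈ a.2, a.1.get e = false) :
    (∀ e, (K.foldl (fun a e => kill h e a) a).1.get e = true ↔ a.1.get e = true ∧ e ∉ K) ∧
    (K.foldl (fun a e => kill h e a) a).2.Nodup ∧
    (∀ e, e ∈ (K.foldl (fun a e => kill h e a) a).2 ↔
      e ∈ a.2 ∨ (a.1.get e = true ∧ e ∈ K ∧ h e = true)) ∧
    (K.foldl (fun a e => kill h e a) a).2.length ≤ a.2.length + K.length := by
  induction K generalizing a with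
  | nil => simp [nd]
  | cons x K ih =>
    rw [List.foldl_cons]
    have k1 : ∀ e, (kill h x a).1.get e = true ↔ a.1.get e = true ∧ e ≠ x := fun e => by
      unfold kill
      by_cases c : a.1.get x = true
      · rw [if_pos c, Arr.get_set]; split_ifs with d <;> simp [d]
      · rw [if_neg c]; exact ⟨fun q => ⟨q, fun d => c (d ▸ q)⟩, fun q => q.1⟩
    have k2 : ∀ e, e ∈ (kill h x a).2 ↔ e ∈ a.2 ∨ (a.1.get e = true ∧ e = x ∧ h e = true) :=
      fun e => by
      unfold kill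
      split_ifs with c d
      · rw [List.mem_cons]
        exact ⟨fun q => q.elim (fun q => Or.inr ⟨q ▸ c, q, q ▸ d⟩) Or.inl,
          fun q => q.elim Or.inr fun q => Or.inl q.2.1⟩
      · exact ⟨Or.inl, fun q => q.elim id fun q => absurd (q.2.1 ▸ q.2.2) d⟩
      · exact ⟨Or.inl, fun q => q.elim id fun q => absurd (q.2.1 ▸ q.1) c⟩
    have k3 : (kill h x a).2.Nodup ∧ (kill h x a).2.length ≤ a.2.length + 1 := by
      unfold kill
      split_ifs with c d
      · exact ⟨List.nodup_cons.2 ⟨fun q => (by rw [dj x q] at c; cases c), nd⟩, le_rfl⟩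
      · exact ⟨nd, Nat.le_succ _⟩
      · exact ⟨nd, Nat.le_succ _⟩
    obtain ⟨i1, i2, i3, i4⟩ := ih (kill h x a) k3.1 fun e q => Bool.eq_false_iff.2 fun q' => by
      rcases (k2 e).1 q with q | q
      · have := ((k1 e).1 q').1
        rw [dj e q] at this; cases this
      · exact ((k1 e).1 q').2 q.2.1
    refine ⟨fun e => by rw [i1, k1, List.mem_cons, not_or, and_assoc], i2, fun e => ?_,
      by have := k3.2; rw [List.length_cons]; omega⟩
    rw [i3, k1, k2, List.mem_cons]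
    by_cases c : e = x <;> simp [c]

theorem foldl_ends (vx : ℕ → ℕ) (K T : List ℕ) :
    (∀ v, v ∈ K.foldl (fun T' e => vx (2 * e) :: vx (2 * e + 1) :: T') T ↔
      v ∈ T ∨ ∃ e ∈ K, v = vx (2 * e) ∨ v = vx (2 * e + 1)) ∧
    (K.foldl (fun T' e => vx (2 * e) :: vx (2 * e + 1) :: T') T).length =
      T.length + 2 * K.length := by
  induction K generalizing T with
  | nil => simp
  | cons x K ih =>
    rw [List.foldl_cons]
    obtain ⟨i1, i2⟩ := ih (vx (2 * x) :: vx (2 * x + 1) :: T)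
    refine ⟨fun v => ?_, by rw [i2]; simp only [List.length_cons]; omega⟩
    rw [i1]
    simp only [List.mem_cons, exists_eq_or_imp]
    generalize (∃ e ∈ K, v = vx (2 * e) ∨ v = vx (2 * e + 1)) = p
    generalize (v = vx (2 * x)) = p1
    generalize (v = vx (2 * x + 1)) = p2
    tauto

/-- a level with more touched vertices -/
def Lv.add (T : List ℕ) (y : Lv) : Lv := ⟨y.cnt, y.lm, y.dd, y.sn, y.hl, T.reverse ++ y.S⟩

theorem mem_add {T : List ℕ} {y : Lv} {v : ℕ} : v ∈ (y.add T).S ↔ v ∈ T ∨ v ∈ y.S := by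
  simp [Lv.add]

section touch

variable {vx' : ℕ → ℕ} {al al' : ℕ → Bool} {T T' : List ℕ}

theorem LvOk.add {y : Lv} (h : LvOk k cls vx al y) (hc : Chg vx' vx T) (hT : ∀ v ∈ T, v ∈ T')
    (hlt : ∀ v ∈ T', v < k.nV) (ha : ∀ e, al' e = true → al e = true)
    (hk : ∀ o, al (o / 2) = true → al' (o / 2) = false → vx' o ∈ T') :
    LvOk k cls vx' al' (y.add T') := by
  obtain ⟨vx0, h1, h2, h3⟩ := h.sn
  have c : Chg vx' vx0 (y.add T').S := by
    refine ⟨fun o o' q => h1.1 o o' (hc.1 o o' q), fun o q => ?_⟩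
    simp only [mem_add]
    by_cases a : vx' o = vx o
    · have := h1.2 o (a ▸ q)
      exact ⟨Or.inr (a ▸ this.1), Or.inr this.2⟩
    · refine ⟨Or.inl (hT _ (hc.2 o a).1), ?_⟩
      by_cases b : vx o = vx0 o
      · exact Or.inl (b ▸ hT _ (hc.2 o a).2)
      · exact Or.inr (h1.2 o b).2
  have d : ∀ o, al (o / 2) = true → al' (o / 2) = false → vx0 o ∈ (y.add T').S := fun o p q => by
    by_cases a : vx' o = vx0 o
    · exact mem_add.2 (Or.inl (a ▸ hk o p q))
    · exact (c.2 o a).2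
  refine ⟨⟨vx0, c, h2, fun e p q => ?_⟩, h.lm, h.dd, h.cnt,
    fun v q => (mem_add.1 q).elim (hlt v) (h.lt v)⟩
  have w := h3 e (ha e p) q
  refine ⟨w.wk, w.len, fun o ho => ⟨(w.pub o ho).1, (w.pub o ho).2.1, fun u => ?_⟩, w.ix⟩
  by_cases a : al (o / 2) = true
  · exact ⟨d o a u, d (rv o) (by rwa [rv_div]) (by rwa [rv_div])⟩
  · have := (w.pub o ho).2.2 (Bool.eq_false_iff.2 a)
    exact ⟨mem_add.2 (Or.inr this.1), mem_add.2 (Or.inr this.2)⟩

theorem Lk.add {x y : Lv} (h : Lk Nx Gam vx al x y) (hc : Chg vx' vx T) (hT : ∀ v ∈ T, v ∈ T')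
    (ha : ∀ e, al' e = true → al e = true) : Lk Nx Gam vx' al' (x.add T') (y.add T') := by
  refine ⟨fun v q => mem_add.2 ((mem_add.1 q).imp_right (h.sub v)), h.h, h.dj, h.nd,
    fun e a b u => h.un e (ha e a) b fun o ho => ?_, h.nx, h.le, h.dd⟩
  have d : ∀ o, vx' o ∉ (y.add T').S → vx o ∉ y.S := fun o p q => by
    by_cases a : vx' o = vx o
    · exact p (mem_add.2 (Or.inr (a ▸ q)))
    · exact p (mem_add.2 (Or.inl (hT _ (hc.2 o a).1)))
  exact ⟨d o (u o ho).1, d _ (u o ho).2⟩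

end touch

theorem val_add (b : ℕ) (T : List ℕ) (l : List Lv) : val b (l.map (Lv.add T)) = val b l := by
  induction l with
  | nil => rfl
  | cons y l ih => simp only [List.map_cons, val, ih, Lv.add]

theorem psi_add (T : List ℕ) (l : List Lv) : psi (l.map (Lv.add T)) = psi l := by
  simp only [psi, List.map_map]; rfl

theorem phi_add (b : ℕ) (T : List ℕ) (l : List Lv) :
    phi b (l.map (Lv.add T)) ≤ phi b l + b * l.length * T.length := by
  induction l with
  | nil => simp [phi]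
  | cons y l ih =>
    simp only [phi, List.map_cons, List.sum_cons, Lv.add, List.length_append, List.length_reverse,
      List.length_cons] at ih ⊢
    have := Nat.mul_le_mul_right T.length (Nat.sub_le b y.cnt)
    nlinarith

theorem num_rc {cH b L p p' m M s s' o n o' K : ℕ} (h1 : p' + m ≤ p + b * L * M)
    (h2 : s' + o = s + n) (h3 : n ≤ cH * (m + 1)) (h4 : o' ≤ K + o) (h5 : K ≤ M) :
    o' + n + (2 * cH * p' + s') ≤ 2 * cH * p + s + (2 * cH * (b * L + 1) + 1) * (M + 1) := by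
  have := Nat.mul_le_mul_left (2 * cH) h1
  generalize b * L = c at *
  nlinarith [Nat.zero_le (cH * c), Nat.zero_le (cH * M)]

theorem num_tm {Cr cH DD LM b L p p' m M s s' o n ts bd t : ℕ} (h1 : p' + m ≤ p + b * L * M)
    (h2 : s' + o = s + n) (h3 : n ≤ cH * (m + 1)) (h4 : ts ≤ DD * m)
    (h5 : t ≤ Cr * (m + 1) + 3 * o + ts + L * M + 3 * M + 5 * L + 20) :
    t + ((Cr + 8 * cH + DD * (LM + 6)) * p' + 8 * s' + (LM + 4) * (ts + bd)) ≤
      (Cr + 8 * cH + DD * (LM + 6)) * p + 8 * s + (LM + 4) * bd +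
        ((Cr + 8 * cH + DD * (LM + 6)) * (b * L + 1) + 5 * L + 20) * (M + 1) := by
  have a1 := Nat.mul_le_mul_left (LM + 5) h4
  have a2 : (Cr + 8 * cH + DD * (LM + 6)) * m =
      Cr * m + 8 * (cH * m) + (LM + 5) * (DD * m) + DD * m := by ring
  have a3 : Cr + 8 * cH ≤ Cr + 8 * cH + DD * (LM + 6) := Nat.le_add_right _ _
  generalize Cr + 8 * cH + DD * (LM + 6) = A at *
  have a4 := Nat.mul_le_mul_left A h1
  generalize b * L = c at *
  generalize DD * m = d at *
  nlinarith [Nat.zero_le (A * c), Nat.zero_le (A * M), Nat.zero_le (L * M)]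

theorem sp_upd' (hr : RecSpec g bx cls k Nx Gam) {vx' : Arr ℕ} {T K : List ℕ}
    (hI : Inv k Nx Gam cls gt la th L vx s n) (hc : Chg vx'.get vx T) (hT : ∀ v ∈ T, v < k.nV)
    (hK : ∀ e ∈ K, vx'.get (2 * e) < k.nV ∧ vx'.get (2 * e + 1) < k.nV)
    (hn : n + 1 < (k.b + 1) ^ L) :
    Sp g (upd bx k.b vx' T K s) fun r t =>
      Inv k Nx Gam cls gt la th L vx'.get r.1 (n + 1) ∧
      (∀ e, r.1.al.get e = true ↔ s.al.get e = true ∧ e ∉ K) ∧
      r.2.1.Nodup ∧ (∀ e ∈ r.2.1, s.pub e) ∧ r.2.2.Nodup ∧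
      (∀ e ∈ r.2.2, ¬(s.pub e ∧ e ∉ r.2.1)) ∧
      (∀ e, r.1.pub e ↔ (s.pub e ∧ e ∉ r.2.1) ∨ e ∈ r.2.2) ∧
      r.2.1.length + r.2.2.length + k.rc r.1 ≤ k.rc s + k.RU L (T.length + 2 * K.length) ∧
      t + k.Phi r.1 ≤ k.Phi s + k.TU L (T.length + 2 * K.length) := by
  obtain ⟨al, ls, bad⟩ := s
  obtain ⟨len, ok, lk, cur, vl, cov⟩ := hI
  cases ls with
  | nil => cases len
  | cons x l =>
  simp only [St.cur, List.headD_cons, List.tail_cons, List.length_cons, add_left_inj]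
    at len ok lk cur vl cov
  refine (sp_foldP (kill x.sn.h.get) K (al, [])).bind fun a t1 ⟨ea, e1⟩ => ?_
  obtain ⟨a1, a2, a3, a4⟩ := foldl_kill x.sn.h.get K (al, []) List.nodup_nil fun e q => nomatch q
  rw [← ea] at a1 a2 a3 a4
  simp only [List.not_mem_nil, false_or, List.length_nil, zero_add] at a1 a3 a4
  refine (sp_foldP _ K T).bind fun T' t2 ⟨eT, e2⟩ => ?_
  obtain ⟨b1, b2⟩ := foldl_ends vx'.get K T
  rw [← eT] at b1 b2
  refine (sp_mapL' (Lv.add T') (fun _ => T'.length + 1) fun y _ =>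
    (sp_revAppL T' y.S).bind fun S' t q => sp_pure.2 ⟨by rw [q.1]; rfl, q.2.le⟩).bind
    fun ls t3 ⟨el, e3⟩ => ?_
  have ha : ∀ e, a.1.get e = true → al.get e = true := fun e q => ((a1 e).1 q).1
  have hT' : ∀ v ∈ T, v ∈ T' := fun v q => (b1 v).2 (Or.inl q)
  subst el
  rw [List.map_cons]
  refine (sp_go hr (l.map (Lv.add T')) (x.add T') (fun y hy => ?_) ?_ ?_).bind
    fun r t4 ⟨x', l', m, er, G⟩ => ?_
  · rw [← List.map_cons] at hy
    obtain ⟨y, hy', rfl⟩ := List.mem_map.1 hy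
    refine (ok y hy').add hc hT' (fun v q => ?_) ha fun o p q => (b1 _).2 (Or.inr ⟨o / 2, ?_, ?_⟩)
    · rcases (b1 v).1 q with q' | ⟨e, q', rfl | rfl⟩
      exacts [hT v q', (hK e q').1, (hK e q').2]
    · by_contra u
      rw [(a1 _).2 ⟨p, u⟩] at q; cases q
    · rcases Nat.mod_two_eq_zero_or_one o with u | u
      · exact Or.inl (congrArg _ (by omega))
      · exact Or.inr (congrArg _ (by omega))
  · rw [← List.map_cons, List.isChain_map]
    exact lk.imp fun _ _ q => q.add hc hT' ha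
  · rw [val_add, List.length_map, vl, len]; exact hn
  refine (sp_filterP _ _).bind fun o2 t5 ⟨eo, e5⟩ => (sp_revAppL _ _).bind fun out t6 ⟨eu, e6⟩ =>
    (sp_revAppL _ _).bind fun bad' t7 ⟨eb, e7⟩ => ?_
  have mo : ∀ e, e ∈ out ↔ (al.get e = true ∧ e ∈ K ∧ x.sn.h.get e = true) ∨
      (e ∈ r.2.1 ∧ al.get e = true ∧ e ∉ K) := fun e => by
    rw [eu, eo, List.mem_append, List.mem_reverse, List.mem_filter, a3, a1]
  have lo : out.length ≤ K.length + r.2.1.length := by
    have := List.length_filter_le a.1.get r.2.1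
    rw [eu, eo, List.length_append, List.length_reverse]; omega
  have xh : (x.add T').sn = x.sn := rfl
  have ph := phi_add k.b T' l
  have gp := G.phi
  have gs := G.psi
  have gn := G.nl
  have gt' := G.tl
  have gm := G.tm
  rw [← List.map_cons, psi_add] at gs
  rw [List.length_map, len] at gm
  rw [len] at ph
  simp only [sp_pure, St.pub, St.cur, er, List.headD_cons, Cs.rc, Cs.Phi, List.tail_cons]
  refine ⟨⟨by rw [List.length_cons, G.len, List.length_map, len], G.ok, G.lk, G.S,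
    by rw [List.tail_cons, G.val, val_add, vl], fun e p q u => ?_⟩, a1, ?_, fun e q => ?_, G.nnd,
    fun e q u => ?_, fun e => ?_, ?_, ?_⟩
  · simp only [eb, List.mem_append, List.mem_reverse, not_or] at u
    obtain ⟨u1, u2, -⟩ := G.un e p q u.1
    simp only [St.cur, List.headD_cons]
    rw [u2]
    exact cov e (ha e p) u1 u.2
  · rw [eu, eo]
    refine List.Nodup.append (List.nodup_reverse.2 a2) (G.ond.filter _) fun e p q => ?_
    exact ((a1 e).1 (List.mem_filter.1 q).2).2 ((a3 e).1 (List.mem_reverse.1 p)).2.1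
  · rcases (mo e).1 q with q | q
    exacts [⟨q.1, q.2.2⟩, ⟨q.2.1, G.oh e q.1⟩]
  · have p := (a1 e).1 (G.nw e q).1
    exact (G.nw e q).2 ⟨u.1.2, fun v => u.2 ((mo e).2 (Or.inr ⟨v, p⟩))⟩
  · have := fun q => (a1 e).1 (G.nw e q).1
    rw [G.h, xh, a1, mo]
    tauto
  · rw [Cs.RU, ← b2]
    exact num_rc (by omega) gs gn lo (by omega)
  · rw [Cs.TU, ← b2, eb, List.length_append, List.length_reverse]
    simp only [List.map_const', List.sum_replicate, smul_eq_mul, List.length_cons, len] at e3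
    exact num_tm (by omega) gs gn gt' (t := t1 + (t2 + (t3 + (t4 + (t5 + (t6 + (t7 + 0)))))))
      (by rw [add_mul, one_mul, mul_add, mul_one] at e3; omega)

end Crest.Agent.N325.Ds
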